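import Mathlib.FieldTheory.Fixed
import Mathlib.FieldTheory.Finite.Basic
import Mathlib.RingTheory.IntegralDomain
import Mathlib.GroupTheory.SpecificGroups.Cyclic
import Mathlib.LinearAlgebra.FreeModule.Finite.Matrix
import Mathlib.FieldTheory.Finiteness

/-!
P180: automorphisms of finite fields which fix the elements of `p`-power order.
-/

namespace Vale.Agent.P180.H805

/-- If `x = 1` modulo `p`, then `p (x - 1)` divides `x ^ p - 1`. -/
theorem mul_dvd_pow_sub {p x : ℕ} (hx : 0 < x) (h : p ∣ x - 1) : p * (x - 1) ∣ x ^ p - 1 := by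
  obtain ⟨y, rfl⟩ : ∃ y, x = y + 1 := ⟨x - 1, by omega⟩
  have h1 : (∑ i ∈ Finset.range p, (y + 1) ^ i) * y = (y + 1) ^ p - 1 := by
    have := Nat.geomSum_eq (m := y + 1) (n := p)
    rcases Nat.eq_zero_or_pos y with rfl | hy
    · simp
    · rw [this (by omega)]
      simp only [Nat.add_sub_cancel]
      exact Nat.div_mul_cancel (by simpa using Nat.sub_dvd_pow_sub_pow (y + 1) 1 p)
  have h2 : p ∣ ∑ i ∈ Finset.range p, (y + 1) ^ i := by
    simp only [Nat.add_sub_cancel] at h
    have h3 : ((∑ i ∈ Finset.range p, (y + 1) ^ i : ℕ) : ZMod p) = 0 := by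
      have hy : (y : ZMod p) = 0 := (ZMod.natCast_eq_zero_iff y p).mpr h
      simp [hy]
    exact (ZMod.natCast_eq_zero_iff _ p).mp h3
  simp only [Nat.add_sub_cancel]
  rw [← h1]
  exact Nat.mul_dvd_mul_right h2 y

/-- If `x = 1` modulo `p` and `p` does not divide `d`, each power of `p` which divides `x ^ d - 1`
divides `x - 1`. -/
theorem dvd_of_dvd_pow_sub {p x d j : ℕ} (hp : p.Prime) (hx : 0 < x) (h : p ∣ x - 1) (hd : ¬ p ∣ d)
    (hj : p ^ j ∣ x ^ d - 1) : p ^ j ∣ x - 1 := by
  obtain ⟨y, rfl⟩ : ∃ y, x = y + 1 := ⟨x - 1, by omega⟩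
  have h1 : (∑ i ∈ Finset.range d, (y + 1) ^ i) * y = (y + 1) ^ d - 1 := by
    have := Nat.geomSum_eq (m := y + 1) (n := d)
    rcases Nat.eq_zero_or_pos y with rfl | hy
    · simp
    · rw [this (by omega)]
      simp only [Nat.add_sub_cancel]
      exact Nat.div_mul_cancel (by simpa using Nat.sub_dvd_pow_sub_pow (y + 1) 1 d)
  simp only [Nat.add_sub_cancel] at h ⊢
  have h2 : ¬ p ∣ ∑ i ∈ Finset.range d, (y + 1) ^ i := by
    intro h4
    apply hd
    have h3 : ((∑ i ∈ Finset.range d, (y + 1) ^ i : ℕ) : ZMod p) = d := by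
      have hy : (y : ZMod p) = 0 := (ZMod.natCast_eq_zero_iff y p).mpr h
      simp [hy]
    rw [(ZMod.natCast_eq_zero_iff _ p).mpr h4] at h3
    exact (ZMod.natCast_eq_zero_iff _ p).mp h3.symm
  rw [← h1] at hj
  exact (Nat.Coprime.dvd_of_dvd_mul_left
    (Nat.Coprime.pow_left j ((Nat.Prime.coprime_iff_not_dvd hp).mpr h2)) hj)

/-- An automorphism of order `p` of a finite field `E`, `p` a divisor of `|E| - 1`, moves an element
of `p`-power order. -/
theorem exists_moved {p : ℕ} [Fact p.Prime] {E : Type*} [Field E] [Finite E]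
    (hp : p ∣ Nat.card E - 1) (ρ : E ≃+* E) (hρ : ρ ^ p = 1)
    (hfix : ∀ ζ : E, (∃ j, ζ ^ p ^ j = 1) → ρ ζ = ζ) : ρ = 1 := by
  classical
  by_contra hne
  have hpp : p.Prime := Fact.out
  have hord : orderOf ρ = p := orderOf_eq_prime hρ hne
  have hfG : Finite (E ≃+* E) := Finite.of_injective (fun τ : E ≃+* E => (τ : E → E))
    DFunLike.coe_injective
  let G : Subgroup (E ≃+* E) := Subgroup.zpowers ρ
  have hfin : Fintype G := Fintype.ofFinite G
  let E0 := FixedPoints.subfield G E
  have hff : FaithfulSMul G E :=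
    ⟨fun {g g'} h => Subtype.ext (RingEquiv.ext fun x => h x)⟩
  have hfr : Module.finrank E0 E = p := by
    have h1 := FixedPoints.finrank_eq_card G E
    rw [h1, ← Nat.card_eq_fintype_card, Nat.card_zpowers, hord]
  have hc : Nat.card E = Nat.card E0 ^ p := by
    rw [← hfr]
    exact Module.natCard_eq_pow_finrank
  have hmem : ∀ ζ : E, (∃ j, ζ ^ p ^ j = 1) → ζ ∈ E0 := by
    intro ζ hζ g
    obtain ⟨n, hn⟩ := g.2
    have h2 : ∀ n : ℤ, (ρ ^ n) ζ = ζ := by
      have h3 : ∀ n : ℕ, (ρ ^ n) ζ = ζ := by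
        intro n
        induction n with
        | zero => simp
        | succ n ih =>
          rw [pow_succ]
          change (ρ ^ n) (ρ ζ) = ζ
          rw [hfix ζ hζ, ih]
      intro n
      obtain ⟨k, rfl | rfl⟩ := n.eq_nat_or_neg
      · simpa using h3 k
      · rw [zpow_neg, zpow_natCast]
        have h4 : (ρ ^ k)⁻¹ ((ρ ^ k) ζ) = ζ := by
          change ((ρ ^ k)⁻¹ * (ρ ^ k)) ζ = ζ
          simp
        rw [h3 k] at h4
        exact h4
    have h5 : ((g : E ≃+* E)) ζ = ζ := by
      rw [← hn]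
      exact h2 n
    exact h5
  -- the maximal power of `p`
  have hE1 : 1 < Nat.card E := Finite.one_lt_card
  have hE0 : 1 < Nat.card E0 := Finite.one_lt_card
  obtain ⟨a, m, hm, ham⟩ := Nat.exists_eq_pow_mul_and_not_dvd
    (n := Nat.card E - 1) (by omega) p hpp.ne_one
  have ha : a ≠ 0 := by
    rintro rfl
    rw [pow_zero, one_mul] at ham
    exact hm (ham ▸ hp)
  -- an element of order `p ^ a`
  have hcu : Nat.card Eˣ = Nat.card E - 1 := by
    rw [Nat.card_units]
  obtain ⟨g, hg⟩ := IsCyclic.exists_generator (α := Eˣ)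
  have hgo : orderOf g = p ^ a * m := by
    rw [orderOf_eq_card_of_forall_mem_zpowers hg, hcu, ham]
  have hm0 : m ≠ 0 := by
    rintro rfl
    exact hm (dvd_zero _)
  let u : Eˣ := g ^ m
  have hu : orderOf u = p ^ a := by
    have h6 : orderOf (g ^ m) = orderOf g / m :=
      orderOf_pow_of_dvd hm0 (hgo ▸ Dvd.intro_left _ rfl)
    rw [show u = g ^ m from rfl, h6, hgo, Nat.mul_div_cancel _ (Nat.pos_of_ne_zero hm0)]
  have hu1 : (u : E) ^ p ^ a = 1 := by
    rw [← Units.val_pow_eq_pow_val, ← hu, pow_orderOf_eq_one, Units.val_one]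
  have huE0 : (u : E) ∈ E0 := hmem _ ⟨a, hu1⟩
  have hdv : p ^ a ∣ Nat.card E0 - 1 := by
    let w : E0 := ⟨u, huE0⟩
    have hw0 : w ≠ 0 := by
      intro h
      exact u.ne_zero (congrArg Subtype.val h)
    have h7 : w ^ (Nat.card E0 - 1) = 1 := by
      have := Fintype.ofFinite E0
      rw [Nat.card_eq_fintype_card]
      exact FiniteField.pow_card_sub_one_eq_one w hw0
    have h8 : u ^ (Nat.card E0 - 1) = 1 := by
      apply Units.ext
      rw [Units.val_pow_eq_pow_val, Units.val_one]
      exact congrArg Subtype.val h7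
    rw [← hu]
    exact orderOf_dvd_of_pow_eq_one h8
  have hp1 : p ∣ Nat.card E0 - 1 := dvd_trans (dvd_pow_self p ha) hdv
  have h9 : p * p ^ a ∣ Nat.card E - 1 := by
    rw [hc]
    exact dvd_trans (Nat.mul_dvd_mul_left p hdv) (mul_dvd_pow_sub (by omega) hp1)
  rw [ham, mul_comm p, Nat.mul_dvd_mul_iff_left (pow_pos hpp.pos a)] at h9
  exact hm h9

/-- An automorphism of `p`-power order of a finite field `E`, `p` a divisor of `|E| - 1`, which
fixes all elements of `p`-power order is trivial. -/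
theorem fix_eq_one {p : ℕ} [Fact p.Prime] {E : Type*} [Field E] [Finite E]
    (hp : p ∣ Nat.card E - 1) (τ : E ≃+* E) {m : ℕ} (hm : τ ^ p ^ m = 1)
    (hfix : ∀ ζ : E, (∃ j, ζ ^ p ^ j = 1) → τ ζ = ζ) : τ = 1 := by
  induction m with
  | zero => simpa using hm
  | succ m ih =>
    refine ih (exists_moved hp (τ ^ p ^ m) ?_ ?_)
    · rw [← pow_mul, ← pow_succ, hm]
    · intro ζ hζ
      have h3 : ∀ n : ℕ, (τ ^ n) ζ = ζ := by
        intro n
        induction n with
        | zero => simp
        | succ n ih' =>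
          rw [pow_succ]
          change (τ ^ n) (τ ζ) = ζ
          rw [hfix ζ hζ, ih']
      exact h3 _

theorem mem_range {K E : Type*} [Field K] [Field E] [Finite K] [Algebra K E] (x : E)
    (hx : x ^ Nat.card K = x) : x ∈ (algebraMap K E).range := by
  classical
  have hK := Fintype.ofFinite K
  have h1 := FiniteField.roots_X_pow_card_sub_X K
  have hq : 1 < Nat.card K := Finite.one_lt_card
  have hne : (Polynomial.X ^ Nat.card K - Polynomial.X : Polynomial E) ≠ 0 :=
    FiniteField.X_pow_card_sub_X_ne_zero E hq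
  have hs : (Finset.univ.image (algebraMap K E)) ⊆
      (Polynomial.X ^ Nat.card K - Polynomial.X : Polynomial E).roots.toFinset := by
    intro y hy
    obtain ⟨z, -, rfl⟩ := Finset.mem_image.mp hy
    rw [Multiset.mem_toFinset, Polynomial.mem_roots hne]
    have h2 : z ^ Nat.card K = z := by
      rw [Nat.card_eq_fintype_card]
      exact FiniteField.pow_card z
    simp only [Polynomial.IsRoot.def, Polynomial.eval_sub, Polynomial.eval_pow, Polynomial.eval_X]
    rw [← map_pow, h2, sub_self]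
  have hc : (Polynomial.X ^ Nat.card K - Polynomial.X : Polynomial E).roots.toFinset.card ≤
      (Finset.univ.image (algebraMap K E)).card := by
    rw [Finset.card_image_of_injective _ (algebraMap K E).injective, Finset.card_univ,
      ← Nat.card_eq_fintype_card]
    refine le_trans (Multiset.toFinset_card_le _) (le_trans (Polynomial.card_roots' _) ?_)
    rw [FiniteField.X_pow_card_sub_X_natDegree_eq E hq]
  have he := Finset.eq_of_subset_of_card_le hs hc
  have hx' : x ∈ (Polynomial.X ^ Nat.card K - Polynomial.X : Polynomial E).roots.toFinset := by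
    rw [Multiset.mem_toFinset, Polynomial.mem_roots hne]
    simp only [Polynomial.IsRoot.def, Polynomial.eval_sub, Polynomial.eval_pow, Polynomial.eval_X]
    rw [hx, sub_self]
  rw [← he] at hx'
  obtain ⟨z, -, hz⟩ := Finset.mem_image.mp hx'
  exact ⟨z, hz⟩

/-- The degree of an extension of finite fields which has a new element of `p`-power order. -/
theorem p_dvd_finrank {p : ℕ} [Fact p.Prime] {K E : Type*} [Field K] [Field E] [Finite E]
    [Algebra K E] (hp : p ∣ Nat.card K - 1)
    (hgen : ∃ ζ : E, (∃ j, ζ ^ p ^ j = 1) ∧ ζ ∉ (algebraMap K E).range) :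
    p ∣ Module.finrank K E := by
  classical
  obtain ⟨ζ, ⟨j, hj⟩, hζ⟩ := hgen
  have hpp : p.Prime := Fact.out
  have hK : Finite K := Finite.of_injective _ (algebraMap K E).injective
  by_contra hd
  apply hζ
  have hc : Nat.card E = Nat.card K ^ Module.finrank K E := Module.natCard_eq_pow_finrank
  have hE1 : 1 < Nat.card E := Finite.one_lt_card
  have hK1 : 1 < Nat.card K := Finite.one_lt_card
  have hζ0 : ζ ≠ 0 := by
    rintro rfl
    rw [zero_pow (pow_ne_zero _ hpp.ne_zero)] at hj
    exact zero_ne_one hj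
  have h1 : orderOf ζ ∣ Nat.card E - 1 := by
    have := Fintype.ofFinite E
    rw [Nat.card_eq_fintype_card]
    exact orderOf_dvd_of_pow_eq_one (FiniteField.pow_card_sub_one_eq_one ζ hζ0)
  obtain ⟨i, -, hi⟩ := (Nat.dvd_prime_pow hpp).mp (orderOf_dvd_of_pow_eq_one hj)
  rw [hi, hc] at h1
  have h2 := dvd_of_dvd_pow_sub hpp (by omega) hp hd h1
  have h3 : ζ ^ (Nat.card K - 1) = 1 := orderOf_dvd_iff_pow_eq_one.mp (hi ▸ h2)
  have h4 : ζ ^ Nat.card K = ζ := by
    calc ζ ^ Nat.card K = ζ ^ (Nat.card K - 1 + 1) := by rw [Nat.sub_add_cancel (by omega)]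
      _ = ζ := by rw [pow_succ, h3, one_mul]
  exact mem_range ζ h4

end Vale.Agent.P180.H805
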