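import Vale.Agent.P180.H768.Defect
import Vale.Agent.P180.R2.H799.Loc1

/-!
P180 H805: the block of a group which covers a block of a normal subgroup with an abelian quotient of
`p`-power order.
-/

set_option linter.all false

namespace Vale.Agent.P180.H805.Cov

open Vale.Agent.P180 Vale.Agent.P180.H768.Gd Vale.Agent.P180.R2.H799 Vale.Agent.P180.R2.H365

universe u

section

variable {k : Type u} [Field k] {G : Type} [Group G] [Finite G]

open scoped Classical in
/-- the component of an element of the group algebra -/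
noncomputable def cmp {Q : Type*} [Group Q] (π : G →* Q) (q : Q) (a : MonoidAlgebra k G) :
    MonoidAlgebra k G :=
  MonoidAlgebra.ofCoeff (a.coeff.filter fun x : G => π x = q)

open scoped Classical in
theorem cmp_coeff {Q : Type*} [Group Q] (π : G →* Q) (q : Q)
    (a : MonoidAlgebra k G) (x : G) : (cmp π q a).coeff x = if π x = q then a.coeff x else 0 := by
  change (a.coeff.filter fun x : G => π x = q) x = _
  rw [Finsupp.filter_apply]

theorem cmp_supp {Q : Type*} [Group Q] (π : G →* Q) (q : Q) (a : MonoidAlgebra k G) :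
    SuppIn {x | π x = q} (cmp π q a) := by
  classical
  intro x hx
  rw [cmp_coeff] at hx
  by_contra h
  rw [Set.mem_setOf_eq] at h
  rw [if_neg h] at hx
  exact hx rfl

theorem sum_cmp {Q : Type*} [Group Q] [Fintype Q] (π : G →* Q) (a : MonoidAlgebra k G) :
    ∑ q, cmp π q a = a := by
  classical
  apply MonoidAlgebra.coeff_injective
  ext x
  rw [MonoidAlgebra.coeff_sum, Finsupp.finset_sum_apply, Finset.sum_eq_single (π x)]
  · rw [cmp_coeff, if_pos rfl]
  · intro b _ hb
    rw [cmp_coeff, if_neg (Ne.symm hb)]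
  · intro h
    exact absurd (Finset.mem_univ _) h

theorem cmp_Fix {Q : Type*} [Group Q] (hQ : ∀ x y : Q, x * y = y * x) (π : G →* Q) (q : Q)
    {a : MonoidAlgebra k G} {S : Subgroup G} (ha : a ∈ Fix (cj k G) S) :
    cmp π q a ∈ Fix (cj k G) S := by
  classical
  intro g hg
  apply MonoidAlgebra.coeff_injective
  ext x
  have h1 : π (g⁻¹ * x * g) = π x := by
    rw [map_mul, map_mul, map_inv, hQ, ← mul_assoc, mul_inv_cancel, one_mul]
  rw [cj_coeff, cmp_coeff, cmp_coeff, h1]
  by_cases h : π x = q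
  · rw [if_pos h, if_pos h, ← cj_coeff, ha g hg]
  · rw [if_neg h, if_neg h]

theorem SuppIn_pow {Q : Type*} [Group Q] (π : G →* Q) (q : Q) {a : MonoidAlgebra k G}
    (ha : SuppIn {x | π x = q} a) (n : ℕ) : SuppIn {x | π x = q ^ n} (a ^ n) := by
  induction n with
  | zero =>
    rw [pow_zero, pow_zero, MonoidAlgebra.one_def]
    exact SuppIn.single (by rw [Set.mem_setOf_eq, map_one]) 1
  | succ n ih =>
    rw [pow_succ, pow_succ]
    refine SuppIn.mul ih ha fun s hs t ht => ?_
    rw [Set.mem_setOf_eq] at hs ht ⊢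
    rw [map_mul, hs, ht]

theorem sum_pow {p : ℕ} [Fact p.Prime] [CharP k p] {ι : Type*} (s : Finset ι)
    (f : ι → MonoidAlgebra k G) (hf : ∀ i ∈ s, ∀ j ∈ s, f i * f j = f j * f i) (n : ℕ) :
    (∑ i ∈ s, f i) ^ p ^ n = ∑ i ∈ s, f i ^ p ^ n := by
  classical
  have hch : CharP (MonoidAlgebra k G) p :=
    charP_of_injective_algebraMap (algebraMap k (MonoidAlgebra k G)).injective p
  induction s using Finset.induction_on with
  | empty =>
    rw [Finset.sum_empty, Finset.sum_empty, zero_pow (pow_ne_zero _ (Fact.out : p.Prime).ne_zero)]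
  | insert i s hi ih =>
    rw [Finset.sum_insert hi, Finset.sum_insert hi, add_pow_char_pow_of_commute, ih]
    · intro a ha b hb
      exact hf a (Finset.mem_insert_of_mem ha) b (Finset.mem_insert_of_mem hb)
    · refine Commute.sum_right _ _ _ fun j hj => ?_
      exact hf i (Finset.mem_insert_self i s) j (Finset.mem_insert_of_mem hj)

/-- **The central idempotents lie in the subgroup.** -/
theorem idem_mem_ker {p : ℕ} [Fact p.Prime] [CharP k p] {Q : Type*} [Group Q] [Finite Q]
    (hQ : ∀ x y : Q, x * y = y * x) (hp : IsPGroup p Q) (π : G →* Q) {f : MonoidAlgebra k G}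
    (hf : f * f = f) (hfc : f ∈ Fix (cj k G) ⊤) : f ∈ SubAlg k π.ker := by
  classical
  have := Fintype.ofFinite Q
  obtain ⟨n, hn⟩ := IsPGroup.iff_card.mp hp
  have h1 : f ^ p ^ n = f := by
    have hi : IsIdempotentElem f := hf
    have h0 : p ^ n ≠ 0 := pow_ne_zero _ (Fact.out : p.Prime).ne_zero
    obtain ⟨m, hm⟩ := Nat.exists_eq_succ_of_ne_zero h0
    rw [hm]
    exact hi.pow_succ_eq m
  have h2 : f = ∑ q, cmp π q f ^ p ^ n := by
    rw [← sum_pow (p := p), sum_cmp, h1]
    intro q _ q' _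
    exact commute_of_mem (SubAlg_top _) (cmp_Fix hQ π q' hfc)
  rw [h2]
  refine Subalgebra.sum_mem _ fun q _ => ?_
  have h3 := SuppIn_pow π q (cmp_supp π q f) (p ^ n)
  refine SuppIn.mono (fun x hx => ?_) h3
  rw [Set.mem_setOf_eq] at hx
  change π x = 1
  rw [hx, ← hn, pow_card_eq_one']

/-- central idempotents, for a normal subgroup -/
theorem idem_mem {p : ℕ} [Fact p.Prime] [CharP k p] {N : Subgroup G} [N.Normal]
    (hQ : ∀ x y : G ⧸ N, x * y = y * x) (hp : IsPGroup p (G ⧸ N)) {f : MonoidAlgebra k G}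
    (hf : f * f = f) (hfc : f ∈ Fix (cj k G) ⊤) : f ∈ SubAlg k N := by
  have h := idem_mem_ker (k := k) hQ hp (QuotientGroup.mk' N) hf hfc
  rwa [QuotientGroup.ker_mk'] at h

/-- **The covering block.** -/
theorem exists_cover {p : ℕ} [Fact p.Prime] [CharP k p] {N : Subgroup G} [N.Normal]
    (hQ : ∀ x y : G ⧸ N, x * y = y * x) (hp : IsPGroup p (G ⧸ N)) {e : MonoidAlgebra k G}
    (he : IsBlockOf N e) :
    ∃ (B z : MonoidAlgebra k G) (S : Subgroup G), IsBlockOf (⊤ : Subgroup G) B ∧
      B ∈ SubAlg k N ∧ B * e = e ∧ IsPGroup p S ∧ z ∈ Fix (cj k G) S ∧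
      B = tr (cj k G) S ⊤ z ∧ br S B ≠ 0 := by
  obtain ⟨B, hB, hBe⟩ := exists_covered (X := (⊤ : Subgroup G)) he.ne_zero
  have hBN : B ∈ SubAlg k N := idem_mem hQ hp hB.idem.eq hB.mem.2
  have hBZ : B ∈ ZAlg k N := mem_ZAlg.mpr ⟨hBN, Fix_mono _ le_top hB.mem.2⟩
  have hc : B * e = e * B := (commute_of_mem (SubAlg_top e) hB.mem.2).symm
  have hBe' : B * e = e := by
    rcases he.primitive (B * e) ((ZAlg k _).mul_mem hBZ he.mem) (by
      change B * e * (B * e) = B * e
      rw [hc, mul_assoc, ← mul_assoc B e, hc, mul_assoc e B B, hB.idem.eq, ← mul_assoc,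
        he.idem.eq]) (by rw [mul_assoc, he.idem.eq]) with h | h
    · rw [hc] at h
      exact absurd h hBe
    · exact h
  obtain ⟨S⟩ : Nonempty (Sylow p G) := inferInstance
  have hS : ¬ p ∣ (S : Subgroup G).relIndex ⊤ := by
    rw [Subgroup.relIndex_top_right]
    exact S.not_dvd_index
  have h0 := eq_tr_of_not_dvd (k := k) p hS hB.mem.2
  obtain ⟨P', hP'S, a', ha', hea', c, hc, hec⟩ := exists_min_defect (p := p) hB
    (Subalgebra.smul_mem _ (Fix_mono _ le_top hB.mem.2) _) h0
  refine ⟨B, a', P', hB, hBN, hBe', S.isPGroup'.to_le hP'S, ha', hea', ?_⟩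
  intro h
  have h1 := congrArg (fun x : MonoidAlgebra k G => x.coeff c) h
  classical
  beta_reduce at h1
  rw [br_coeff, if_pos, MonoidAlgebra.coeff_zero] at h1
  · exact hec h1
  · rw [Subgroup.mem_centralizer_iff]
    intro h hh
    exact mul_inv_eq_iff_eq_mul.mp (hc h hh)

end

end Vale.Agent.P180.H805.Cov
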