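import Vale.Agent.P180.H805.LeF

/-!
P180 H805: the blocks of one hyperbolic pair; change of the index type.
-/

set_option linter.all false

namespace Vale.Agent.P180.H805.Hs

open Module Vale.Agent.P180 Vale.Agent.P180.H768.Gd Vale.Agent.P180.R2.H854
  Vale.Agent.P180.R2.H799 Vale.Agent.P180.R2.H799.BN Vale.Agent.P180.H393.Fm

variable {K E : Type} [Field K] [AddCommGroup E] [Module K E] {Φ : HForm K E}
  {ι : Type} [Fintype ι]

section InJ

variable (K ι)

/-- the first inclusion -/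
def in1 (ι1 ι2 : Type) : (ι1 → K) →ₗ[K] (ι1 ⊕ ι2 → K) where
  toFun a := mk2 a 0
  map_add' a b := by
    funext i
    rcases i with i | i
    · rfl
    · exact (add_zero (0 : K)).symm
  map_smul' r a := by
    funext i
    rcases i with i | i
    · rfl
    · exact (smul_zero r).symm

/-- the second inclusion -/
def in2 (ι1 ι2 : Type) : (ι2 → K) →ₗ[K] (ι1 ⊕ ι2 → K) where
  toFun b := mk2 0 b
  map_add' a b := by
    funext i
    rcases i with i | i
    · exact (add_zero (0 : K)).symm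
    · rfl
  map_smul' r a := by
    funext i
    rcases i with i | i
    · exact (smul_zero r).symm
    · rfl

/-- the inclusion of the block of index `j` -/
def inJ : ∀ (n j : ℕ), (ι → K) →ₗ[K] (J ι n → K)
  | 0, _ => 0
  | n + 1, j => (if j = n then in2 K (J ι n) ι else in1 K (J ι n) ι ∘ₗ inJ n j :
      (ι → K) →ₗ[K] (J ι n ⊕ ι → K))

end InJ

theorem split2 {ι1 ι2 : Type} (c : ι1 ⊕ ι2 → K) :
    c = mk2 (fs K ι1 ι2 c) 0 + mk2 0 (sn K ι1 ι2 c) := by
  funext i
  rcases i with i | i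
  · exact (add_zero (c (Sum.inl i))).symm
  · exact (zero_add (c (Sum.inr i))).symm

theorem inJ_self (n : ℕ) (b : ι → K) : inJ K ι (n + 1) n b =
    (mk2 0 b : J ι n ⊕ ι → K) := by
  have h : inJ K ι (n + 1) n = (if n = n then in2 K (J ι n) ι else in1 K (J ι n) ι ∘ₗ inJ K ι n n :
      (ι → K) →ₗ[K] (J ι n ⊕ ι → K)) := rfl
  rw [h, if_pos rfl]
  rfl

theorem inJ_of_ne (n j : ℕ) (hj : j ≠ n) (b : ι → K) : inJ K ι (n + 1) j b =
    (mk2 (inJ K ι n j b) 0 : J ι n ⊕ ι → K) := by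
  have h : inJ K ι (n + 1) j = (if j = n then in2 K (J ι n) ι else in1 K (J ι n) ι ∘ₗ inJ K ι n j :
      (ι → K) →ₗ[K] (J ι n ⊕ ι → K)) := rfl
  rw [h, if_neg hj]
  rfl

theorem hh_inJ (θ : K →+* K) (n j l : ℕ) (hj : j < n) (hl : l < n) (a b : ι → K) :
    hh θ (inJ K ι n j a) (inJ K ι n l b) = if j = l then hh θ a b else 0 := by
  induction n with
  | zero => omega
  | succ n ih =>
    rw [hh_J]
    by_cases h1 : j = n
    · by_cases h2 : l = n
      · subst h1
        subst h2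
        rw [inJ_self, inJ_self, fs_mk2, fs_mk2, sn_mk2, sn_mk2, hh_zero_left, zero_add, if_pos rfl]
      · subst h1
        rw [inJ_self, inJ_of_ne _ _ h2, fs_mk2, fs_mk2, sn_mk2, sn_mk2, hh_zero_left,
          hh_zero_right, zero_add, if_neg (Ne.symm h2)]
    · by_cases h2 : l = n
      · subst h2
        rw [inJ_self, inJ_of_ne _ _ h1, fs_mk2, fs_mk2, sn_mk2, sn_mk2, hh_zero_left,
          hh_zero_right, zero_add, if_neg h1]
      · rw [inJ_of_ne _ _ h1, inJ_of_ne _ _ h2, fs_mk2, fs_mk2, sn_mk2, sn_mk2, hh_zero_left,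
          add_zero, ih (by omega) (by omega)]

/-- linear maps are determined on the blocks -/
theorem ext_inJ {n : ℕ} {f g : (J ι n → K) →ₗ[K] E}
    (h : ∀ j < n, ∀ a, f (inJ K ι n j a) = g (inJ K ι n j a)) : f = g := by
  induction n with
  | zero =>
    ext1 c
    have hc : c = 0 := funext fun x : J ι 0 => nomatch x
    rw [hc, map_zero, map_zero]
  | succ n ih =>
    let i1 : (J ι n → K) →ₗ[K] (J ι (n + 1) → K) := in1 K (J ι n) ι
    have h1 : f ∘ₗ i1 = g ∘ₗ i1 := by
      apply ih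
      intro j hj a
      have h2 := h j (by omega) a
      rw [inJ_of_ne _ _ (by omega)] at h2
      exact h2
    ext1 c
    have hc : c = i1 (fs K (J ι n) ι c) + inJ K ι (n + 1) n (sn K (J ι n) ι c) := by
      rw [inJ_self]
      exact split2 (ι1 := J ι n) (ι2 := ι) c
    rw [hc, map_add, map_add, h n (Nat.lt_succ_self n)]
    congr 1
    exact LinearMap.congr_fun h1 _

theorem xn_inJ {m : ℕ} (F : Frame Φ ι m) (i n j : ℕ) (hj : j < n) (a : ι → K) :
    xn F i n (inJ K ι n j a) = F.x (i + j) a := by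
  induction n with
  | zero => omega
  | succ n ih =>
    rw [xn_succ]
    by_cases h1 : j = n
    · subst h1
      rw [inJ_self, fs_mk2, sn_mk2, map_zero, zero_add]
    · rw [inJ_of_ne _ _ h1, fs_mk2, sn_mk2, map_zero, add_zero, ih (by omega)]

theorem yn_inJ {m : ℕ} (F : Frame Φ ι m) (i n j : ℕ) (hj : j < n) (a : ι → K) :
    yn F i n (inJ K ι n j a) = F.y (i + j) a := by
  induction n with
  | zero => omega
  | succ n ih =>
    rw [yn_succ]
    by_cases h1 : j = n
    · subst h1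
      rw [inJ_self, fs_mk2, sn_mk2, map_zero, zero_add]
    · rw [inJ_of_ne _ _ h1, fs_mk2, sn_mk2, map_zero, add_zero, ih (by omega)]

theorem hyp_ext {κ : Type} [Fintype κ] {P Q : Hyp Φ κ} (hx : P.x = Q.x) (hy : P.y = Q.y) :
    P = Q := by
  cases P
  cases Q
  subst hx
  subst hy
  rfl

/-- **A frame with prescribed blocks.** -/
theorem Hn_eq_of {m : ℕ} (F : Frame Φ ι m) (i n : ℕ) (h : i + n ≤ m) (P : Hyp Φ (J ι n))
    (hx : ∀ j < n, ∀ a, F.x (i + j) a = P.x (inJ K ι n j a))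
    (hy : ∀ j < n, ∀ a, F.y (i + j) a = P.y (inJ K ι n j a)) : Hn F i n h = P := by
  refine hyp_ext (ext_inJ fun j hj a => ?_) (ext_inJ fun j hj a => ?_)
  · rw [Hn_x, xn_inJ F i n j hj, hx j hj]
  · rw [Hn_y, yn_inJ F i n j hj, hy j hj]

/-- **The frame of the blocks of a pair.** -/
def frameOf {n : ℕ} (P : Hyp Φ (J ι n)) : Frame Φ ι n where
  x j := P.x ∘ₗ inJ K ι n j
  y j := P.y ∘ₗ inJ K ι n j
  xx i _ j _ a b := P.xx _ _
  yy i _ j _ a b := P.yy _ _
  xy i hi j hj a b := by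
    rw [LinearMap.comp_apply, LinearMap.comp_apply, P.xy, hh_inJ _ n i j hi hj]

theorem frameOf_x {n : ℕ} (P : Hyp Φ (J ι n)) (j : ℕ) (a : ι → K) :
    (frameOf P).x j a = P.x (inJ K ι n j a) := rfl

theorem frameOf_y {n : ℕ} (P : Hyp Φ (J ι n)) (j : ℕ) (a : ι → K) :
    (frameOf P).y j a = P.y (inJ K ι n j a) := rfl

theorem Hn_frameOf {n : ℕ} (P : Hyp Φ (J ι n)) : Hn (frameOf P) 0 n (Nat.zero_add n).le = P := by
  refine Hn_eq_of _ _ _ _ _ (fun j hj a => ?_) (fun j hj a => ?_)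
  · rw [Nat.zero_add]
    rfl
  · rw [Nat.zero_add]
    rfl

/-! ### change of the index type -/

section Reindex

variable {κ κ' : Type} [Fintype κ] [Fintype κ']

/-- change of the index type -/
def reindex (e : κ ≃ κ') (P : Hyp Φ κ) : Hyp Φ κ' where
  x := P.x ∘ₗ LinearMap.funLeft K K e
  y := P.y ∘ₗ LinearMap.funLeft K K e
  xx a b := P.xx _ _
  yy a b := P.yy _ _
  xy a b := by
    rw [LinearMap.comp_apply, LinearMap.comp_apply, P.xy]
    unfold hh
    exact e.sum_comp fun i => a i * Φ.θ (b i)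

theorem reindex_x (e : κ ≃ κ') (P : Hyp Φ κ) (a : κ' → K) :
    (reindex e P).x a = P.x (a ∘ e) := rfl

theorem reindex_y (e : κ ≃ κ') (P : Hyp Φ κ) (a : κ' → K) :
    (reindex e P).y a = P.y (a ∘ e) := rfl

theorem reindex_x' (e : κ ≃ κ') (P : Hyp Φ κ) (a : κ → K) :
    (reindex e P).x (a ∘ e.symm) = P.x a := by
  rw [reindex_x]
  congr 1
  funext i
  exact congrArg a (e.symm_apply_apply i)

theorem reindex_y' (e : κ ≃ κ') (P : Hyp Φ κ) (a : κ → K) :
    (reindex e P).y (a ∘ e.symm) = P.y a := by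
  rw [reindex_y]
  congr 1
  funext i
  exact congrArg a (e.symm_apply_apply i)

variable [DecidableEq κ] [DecidableEq κ']

theorem reindex_px (e : κ ≃ κ') (P : Hyp Φ κ) (v : E) :
    (reindex e P).px v = P.px v ∘ e.symm := by
  apply hh_ext_left (θ := Φ.θ)
  intro b
  rw [Hyp.hh_px, reindex_y, ← P.hh_px]
  unfold hh
  rw [← e.sum_comp]
  refine Finset.sum_congr rfl fun i _ => ?_
  rw [Function.comp_apply, Function.comp_apply, e.symm_apply_apply]

theorem reindex_py (e : κ ≃ κ') (P : Hyp Φ κ) (v : E) :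
    (reindex e P).py v = P.py v ∘ e.symm := by
  apply hh_ext_left (θ := Φ.θ)
  intro b
  rw [Hyp.hh_py, reindex_x, ← P.hh_py]
  unfold hh
  rw [← e.sum_comp]
  refine Finset.sum_congr rfl fun i _ => ?_
  rw [Function.comp_apply, Function.comp_apply, e.symm_apply_apply]

theorem reindex_px_eq_zero (e : κ ≃ κ') (P : Hyp Φ κ) (v : E) :
    (reindex e P).px v = 0 ↔ P.px v = 0 := by
  rw [reindex_px]
  constructor
  · intro h
    funext i
    have := congrFun h (e i)
    rwa [Function.comp_apply, e.symm_apply_apply] at this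
  · intro h
    rw [h]
    rfl

theorem reindex_py_eq_zero (e : κ ≃ κ') (P : Hyp Φ κ) (v : E) :
    (reindex e P).py v = 0 ↔ P.py v = 0 := by
  rw [reindex_py]
  constructor
  · intro h
    funext i
    have := congrFun h (e i)
    rwa [Function.comp_apply, e.symm_apply_apply] at this
  · intro h
    rw [h]
    rfl

theorem reindex_Fx (e : κ ≃ κ') (P : Hyp Φ κ) : (reindex e P).Fx = P.Fx := by
  ext g
  constructor
  · rintro ⟨h1, h2, h3⟩
    refine ⟨h1, fun a => ?_, fun a => ?_⟩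
    · rw [← reindex_x' e, h2]
    · rw [← reindex_y' e, h3]
  · rintro ⟨h1, h2, h3⟩
    refine ⟨h1, fun a => ?_, fun a => ?_⟩
    · rw [reindex_x, h2]
    · rw [reindex_y, h3]

theorem reindex_UU (e : κ ≃ κ') (P : Hyp Φ κ) : (reindex e P).UU = P.UU := by
  ext g
  constructor
  · rintro ⟨h1, h2, h3⟩
    refine ⟨h1, fun a => ?_, fun v hv => ?_⟩
    · rw [← reindex_x' e, h2]
    · obtain ⟨a, ha⟩ := h3 v ((reindex_py_eq_zero e P v).mpr hv)
      exact ⟨a ∘ e, ha⟩
  · rintro ⟨h1, h2, h3⟩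
    refine ⟨h1, fun a => ?_, fun v hv => ?_⟩
    · rw [reindex_x, h2]
    · obtain ⟨a, ha⟩ := h3 v ((reindex_py_eq_zero e P v).mp hv)
      exact ⟨a ∘ e.symm, by rw [reindex_x']; exact ha⟩

end Reindex

end Vale.Agent.P180.H805.Hs
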