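import Vale.Agent.P180.H805.LeG
import Vale.Agent.P180.H951.EvP
import Vale.Agent.P180.H897.Tow

/-!
P180 H805: the multiplicities of a block of a frame, in terms of one hyperbolic pair.
-/

set_option linter.all false

namespace Vale.Agent.P180.H805.Hs

universe u

open Module Vale.Agent.P180 Vale.Agent.P180.H768.Gd Vale.Agent.P180.R2.H854
  Vale.Agent.P180.R2.H799 Vale.Agent.P180.R2.H799.BN Vale.Agent.P180.H393.Fm
open Vale.Agent.P180.H393 (cg cg_apply X X_cg Om ev IsIr)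
open Vale.Agent.P180.H19.Atwo (mp mp_single)
open Vale.Agent.P180.H897 (EEp Tow)
open Vale.Agent.P180.H951 (EvP mi)
open Vale.Agent.P180.H337
open Vale.Agent.P180.H568.Tp (T T_single ev_T)

variable {K E : Type} [Field K] [AddCommGroup E] [Module K E] {Φ : HForm K E}

section Re

variable {κ κ' : Type} [Fintype κ] [Fintype κ'] [DecidableEq κ] [DecidableEq κ']

/-- the isomorphism of the coordinate spaces -/
def fe (K : Type) [Field K] {κ κ' : Type} (e : κ ≃ κ') : (κ' → K) ≃ₗ[K] (κ → K) :=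
  LinearEquiv.funCongrLeft K K e

omit [Fintype κ] [Fintype κ'] [DecidableEq κ] [DecidableEq κ'] in
theorem fe_apply (e : κ ≃ κ') (a : κ' → K) : fe K e a = a ∘ e := rfl

omit [Fintype κ] [Fintype κ'] [DecidableEq κ] [DecidableEq κ'] in
theorem fe_symm_apply (e : κ ≃ κ') (a : κ → K) : (fe K e).symm a = a ∘ e.symm := rfl

omit [DecidableEq κ] [DecidableEq κ'] in
theorem hh_fe (θ : K →+* K) (e : κ ≃ κ') (a b : κ' → K) :
    hh θ (fe K e a) (fe K e b) = hh θ a b := by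
  unfold hh
  exact e.sum_comp fun i => a i * θ (b i)

omit [DecidableEq κ] [DecidableEq κ'] in
theorem hh_fe' (θ : K →+* K) (e : κ ≃ κ') (a : κ' → K) (b : κ → K) :
    hh θ (fe K e a) b = hh θ a ((fe K e).symm b) := by
  rw [← hh_fe θ e, LinearEquiv.apply_symm_apply]

theorem adjL_fe (e : κ ≃ κ') (g : (κ' → K) ≃ₗ[K] (κ' → K)) (a : κ → K) :
    adjL Φ.θ (cg (fe K e) g) a = fe K e (adjL Φ.θ g ((fe K e).symm a)) := by
  apply hh_ext_right Φ.θθ
  intro b
  rw [hh_adjL' Φ.θθ, ← map_inv, cg_apply, hh_fe', ← hh_adjL' Φ.θθ]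
  conv_rhs => rw [← LinearEquiv.apply_symm_apply (fe K e) b]
  rw [hh_fe]

theorem reindex_gl (e : κ ≃ κ') (P : Hyp Φ κ) (g : (κ' → K) ≃ₗ[K] (κ' → K)) :
    (reindex e P).gl g = P.gl (cg (fe K e) g) := by
  apply Frame.ext_hyp P
  · intro a
    rw [Hyp.gl_x, cg_apply, ← reindex_x' e P a, Hyp.gl_x]
    rfl
  · intro a
    rw [Hyp.gl_y, adjL_fe, ← reindex_y' e P a, Hyp.gl_y]
    rfl
  · intro v h1 h2
    rw [Hyp.gl_w _ _ h1 h2, Hyp.gl_w _ _ ((reindex_px_eq_zero e P v).mpr h1)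
      ((reindex_py_eq_zero e P v).mpr h2)]

theorem mp_reindex {k : Type*} [Field k] (e : κ ≃ κ') (P : Hyp Φ κ)
    (z : MonoidAlgebra k ((κ' → K) ≃ₗ[K] (κ' → K))) :
    mp (reindex e P).gl z = mp P.gl (T (cg (fe K e)) z) := by
  induction z using MonoidAlgebra.induction_linear with
  | zero => simp only [map_zero]
  | add x y hx hy => rw [map_add, map_add, map_add, hx, hy]
  | single a r => rw [mp_single, T_single, mp_single, reindex_gl]

end Re

theorem ev_fe {k : Type u} [Field k] [IsAlgClosed k] [CharZero k] {K : Type} [Field K] [Finite K]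
    {κ κ' : Type} [Fintype κ] [Fintype κ'] (e : κ ≃ κ') (w : Om k K)
    [Fintype ((κ → K) ≃ₗ[K] (κ → K))] [Fintype ((κ' → K) ≃ₗ[K] (κ' → K))]
    (z : MonoidAlgebra k ((κ' → K) ≃ₗ[K] (κ' → K))) :
    ev (X w (κ → K)) (T (cg (fe K e)) z) = ev (X w (κ' → K)) z := by
  rw [ev_T]
  congr 1
  funext g
  exact X_cg w (fe K e) g

/-- **The multiplicities.** -/
theorem evP_frame {k : Type u} [Field k] [IsAlgClosed k] [CharZero k] [Finite K] [Finite E]
    [Finite (E ≃ₗ[K] E)] {ι κ : Type} [Fintype ι] [DecidableEq ι] [Fintype κ] [DecidableEq κ]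
    {m : ℕ} (F : Frame Φ κ m) {m' N : ℕ} (h : m' + N = m) (P : Hyp Φ ι) (e : ι ≃ J κ N)
    (hP : Hn F m' N h.le = reindex e P) (hF : F.H m' = P.Fx)
    (ε : MonoidAlgebra k ((κ → K) ≃ₗ[K] (κ → K))) (Ef : ℕ → MonoidAlgebra k (E ≃ₗ[K] E))
    (hE : ∀ j (hj : j < m), Ef j = av k (F.U j hj) * mp (F.hyp j hj).gl ε)
    {Xf Tf : ℕ → MonoidAlgebra k (E ≃ₗ[K] E)} {a b c : ℕ → k}
    (hT : Tow k (fun i => SubAlg k (F.H i)) m Ef Xf Tf a b c) :
    EvP k (IsoG Φ) P.Fx (av k P.UU * mi k P.gl (T (cg (fe K e)) (eN ε N))) N.factorial := by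
  have key : ∀ (S S' : Subgroup (E ≃ₗ[K] E)) (_ : F.H (m' + N) = S) (_ : F.H m' = S')
      [Fintype S] [Fintype S'] [Fintype (IrK k S')] (χ : IrK k S), ∃ n : IrK k S' → ℕ,
      (∀ ψ, n ψ ≤ N.factorial) ∧ ∀ x ∈ SubAlg k S',
        ev χ.1 (rs S (EEp Ef m' N * x)) = ∑ ψ, (n ψ : k) * ev ψ.1 (rs S' x) := by
    rintro _ _ rfl rfl f1 f2 f3 χ
    letI f4 : ∀ i, Fintype (F.H i) := fun i => Fintype.ofFinite _
    obtain rfl : f1 = f4 (m' + N) := Subsingleton.elim _ _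
    obtain rfl : f2 = f4 m' := Subsingleton.elim _ _
    obtain rfl : f3 = fintype_IrK := Subsingleton.elim _ _
    exact hT.ev_le h.le χ
  intro fS fS' fI χ
  have h1 : EEp Ef m' N = av k P.UU * mi k P.gl (T (cg (fe K e)) (eN ε N)) := by
    rw [EEp_top F ε Ef hE m' N h, hP, reindex_UU, mp_reindex]
    rfl
  rw [← h1]
  exact key _ _ (F.H_top h.ge) hF χ

end Vale.Agent.P180.H805.Hs
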