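import Mathlib.LinearAlgebra.Eigenspace.Triangularizable
import Mathlib.RingTheory.Artinian.Module
import Mathlib.Order.Atoms.Finite
import Mathlib.RingTheory.SimpleModule.Basic

/-!
P180: self-adjoint primitive idempotents in an algebra with a proper involution.
-/

namespace Vale.Agent.P180.H805

/-- A proper involution. -/
structure PI {A : Type*} [Ring A] (st : A → A) : Prop where
  mul : ∀ x y, st (x * y) = st y * st x
  sub : ∀ x y, st (x - y) = st x - st y
  inv : ∀ x, st (st x) = x
  prop : ∀ x, x * st x = 0 → x = 0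

section

variable {F A : Type*} [Field F] [IsAlgClosed F] [Ring A] [Algebra F A] [FiniteDimensional F A]

omit [IsAlgClosed F] [FiniteDimensional F A] in
theorem PI.zero {st : A → A} (h : PI st) : st 0 = 0 := by
  have := h.sub 0 0
  rw [sub_zero, sub_self] at this
  exact this

/-- A self-adjoint primitive idempotent below `f`. -/
theorem exists_prim {st : A → A} (hst : PI st) {f : A} (hf : f * f = f) (hf0 : f ≠ 0) :
    ∃ e : A, e * e = e ∧ st e = e ∧ e ≠ 0 ∧ e * f = e ∧ ∀ z, ∃ c : F, e * z * e = c • e := by
  classical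
  have hst0 : st 0 = 0 := by
    have := hst.sub 0 0
    rw [sub_zero, sub_self] at this
    exact this
  have hart : IsArtinian A A := isArtinian_of_tower F inferInstance
  have hat : IsAtomic (Submodule A A) := isAtomic_of_orderBot_wellFounded_lt wellFounded_lt
  let J0 : Submodule A A := Submodule.span A {f}
  have hfJ : f ∈ J0 := Submodule.mem_span_singleton_self f
  obtain ⟨J, hJ, hJle⟩ : ∃ J : Submodule A A, IsAtom J ∧ J ≤ J0 := by
    rcases eq_bot_or_exists_atom_le J0 with h | h
    · rw [h, Submodule.mem_bot] at hfJ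
      exact absurd hfJ hf0
    · exact h
  obtain ⟨x, hx, hx0⟩ := (Submodule.ne_bot_iff J).mp hJ.1
  have hmulJ : ∀ y : A, ∀ w ∈ J, y * w ∈ J := fun y w hw => J.smul_mem y hw
  let a := st x * x
  have haJ : a ∈ J := hmulJ _ _ hx
  have hsta : st a = a := by
    change st (st x * x) = st x * x
    rw [hst.mul, hst.inv]
  have ha0 : a ≠ 0 := by
    intro h
    have h1 : st x * st (st x) = 0 := by rw [hst.inv]; exact h
    have h2 := hst.prop _ h1
    apply hx0
    rw [← hst.inv x, h2, hst0]
  have haa : a * a ≠ 0 := by
    intro h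
    apply ha0
    apply hst.prop
    rw [hsta]
    exact h
  let R : A →ₗ[A] A := LinearMap.toSpanSingleton A A a
  have hR : ∀ w, R w = w * a := fun w => rfl
  have hmap : J.map R = J := by
    refine (hJ.le_iff.mp ?_).resolve_left ?_
    · rintro _ ⟨w, -, rfl⟩
      exact hmulJ w a haJ
    · intro h
      have : R a ∈ J.map R := Submodule.mem_map_of_mem haJ
      rw [h, Submodule.mem_bot] at this
      exact haa this
  have hker : ∀ w ∈ J, w * a = 0 → w = 0 := by
    have h1 : J ⊓ LinearMap.ker R = ⊥ := by
      refine (hJ.le_iff.mp inf_le_left).resolve_right ?_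
      intro h
      have : a ∈ J ⊓ LinearMap.ker R := by rw [h]; exact haJ
      exact haa (LinearMap.mem_ker.mp this.2)
    intro w hw h
    have : w ∈ J ⊓ LinearMap.ker R := ⟨hw, LinearMap.mem_ker.mpr h⟩
    rw [h1, Submodule.mem_bot] at this
    exact this
  obtain ⟨e, heJ, hea⟩ : ∃ e ∈ J, e * a = a := by
    have : a ∈ J.map R := by rw [hmap]; exact haJ
    exact this
  have hee : e * e = e := by
    refine sub_eq_zero.mp (hker _ (J.sub_mem (hmulJ _ _ heJ) heJ) ?_)
    rw [sub_mul, mul_assoc, hea, hea, sub_self]
  have he0 : e ≠ 0 := by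
    rintro rfl
    rw [zero_mul] at hea
    exact ha0 hea.symm
  have hJe : ∀ w ∈ J, w * e = w := by
    have h1 : Submodule.span A {e} = J := by
      refine (hJ.le_iff.mp ?_).resolve_left ?_
      · rw [Submodule.span_singleton_le_iff_mem]
        exact heJ
      · intro h
        rw [Submodule.span_singleton_eq_bot] at h
        exact he0 h
    intro w hw
    rw [← h1, Submodule.mem_span_singleton] at hw
    obtain ⟨y, rfl⟩ := hw
    rw [smul_eq_mul, mul_assoc, hee]
  have hste : st e = e := by
    have h1 : st e * e = e := by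
      refine sub_eq_zero.mp (hker _ (J.sub_mem (hmulJ _ _ heJ) heJ) ?_)
      have h2 : st e * a = a := by
        calc st e * a = st e * st a := by rw [hsta]
          _ = st (a * e) := (hst.mul a e).symm
          _ = a := by rw [hJe a haJ, hsta]
      rw [sub_mul, mul_assoc, hea, h2, sub_self]
    calc st e = st (st e * e) := by rw [h1]
      _ = st e * e := by rw [hst.mul, hst.inv]
      _ = e := h1
  have hef : e * f = e := by
    have h1 := hJle heJ
    obtain ⟨y, hy⟩ := Submodule.mem_span_singleton.mp h1
    rw [← hy, smul_eq_mul, mul_assoc, hf]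
  refine ⟨e, hee, hste, he0, hef, fun z => ?_⟩
  -- the endomorphism `w ↦ w * (e * z * e)` of `J`
  let JF : Submodule F A := J.restrictScalars F
  have hmem : ∀ w ∈ JF, LinearMap.mulRight F (e * z * e) w ∈ JF := by
    intro w _
    change w * (e * z * e) ∈ J
    rw [← mul_assoc]
    exact hmulJ _ _ heJ
  let T : Module.End F JF := (LinearMap.mulRight F (e * z * e)).restrict hmem
  have hnt : Nontrivial JF := ⟨⟨⟨e, heJ⟩, 0, fun h => he0 (congrArg Subtype.val h)⟩⟩
  obtain ⟨c, hc⟩ := Module.End.exists_eigenvalue T
  obtain ⟨w, hw⟩ := hc.exists_hasEigenvector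
  have hw0 : (w : A) ≠ 0 := fun h => hw.2 (Subtype.ext h)
  have hwT : (w : A) * (e * z * e) = c • (w : A) := congrArg Subtype.val hw.apply_eq_smul
  refine ⟨c, ?_⟩
  let y := e * z * e - c • e
  have hwy : (w : A) * y = 0 := by
    change (w : A) * (e * z * e - c • e) = 0
    rw [mul_sub, hwT, mul_smul_comm, hJe _ w.2, sub_self]
  have h2 : J ⊓ LinearMap.ker (LinearMap.toSpanSingleton A A y) = J := by
    refine (hJ.le_iff.mp inf_le_left).resolve_left ?_
    intro h
    have : (w : A) ∈ J ⊓ LinearMap.ker (LinearMap.toSpanSingleton A A y) :=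
      ⟨w.2, LinearMap.mem_ker.mpr hwy⟩
    rw [h, Submodule.mem_bot] at this
    exact hw0 this
  have h3 : e * y = 0 := by
    have : e ∈ J ⊓ LinearMap.ker (LinearMap.toSpanSingleton A A y) := by rw [h2]; exact heJ
    exact LinearMap.mem_ker.mp this.2
  have h4 : e * y = e * z * e - c • e := by
    change e * (e * z * e - c • e) = _
    rw [mul_sub, mul_smul_comm, hee, ← mul_assoc, ← mul_assoc, hee]
  rw [h4] at h3
  exact sub_eq_zero.mp h3

/-- **A self-adjoint primitive idempotent at which a given additive function does not vanish.** -/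
theorem exists_herm {K : Type*} [AddCommGroup K] {st : A → A} (hst : PI st) (φ : A →+ K)
    (h1 : φ 1 ≠ 0) :
    ∃ e : A, e * e = e ∧ st e = e ∧ e ≠ 0 ∧ (∀ z, ∃ c : F, e * z * e = c • e) ∧ φ e ≠ 0 := by
  classical
  have hst0 : st 0 = 0 := hst.zero
  have hst1 : st 1 = 1 := by
    have h2 : st 1 * st 1 = st 1 := by rw [← hst.mul, mul_one]
    calc st 1 = st 1 * 1 := (mul_one _).symm
      _ = st 1 * st (st 1) := by rw [hst.inv]
      _ = st (st 1 * 1) := (hst.mul (st 1) 1).symm
      _ = 1 := by rw [mul_one, hst.inv]
  have main : ∀ (n : ℕ) (f : A), f * f = f → st f = f → φ f ≠ 0 →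
      Module.finrank F (LinearMap.range (LinearMap.mulRight F f)) ≤ n →
      ∃ e : A, e * e = e ∧ st e = e ∧ e ≠ 0 ∧ (∀ z, ∃ c : F, e * z * e = c • e) ∧ φ e ≠ 0 := by
    intro n
    induction n with
    | zero =>
      intro f hf _ hφ hn
      exfalso
      apply hφ
      have h2 : LinearMap.range (LinearMap.mulRight F f) = ⊥ :=
        Submodule.finrank_eq_zero.mp (Nat.le_zero.mp hn)
      have h3 : f ∈ LinearMap.range (LinearMap.mulRight F f) := ⟨f, hf⟩
      rw [h2, Submodule.mem_bot] at h3
      rw [h3, map_zero]
    | succ n ih =>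
      intro f hf hsf hφ hn
      have hf0 : f ≠ 0 := by
        rintro rfl
        exact hφ (map_zero φ)
      obtain ⟨e, hee, hste, he0, hef, hz⟩ := exists_prim (F := F) hst hf hf0
      by_cases hφe : φ e = 0
      · have hfe : f * e = e := by
          calc f * e = st f * st e := by rw [hsf, hste]
            _ = st (e * f) := (hst.mul e f).symm
            _ = e := by rw [hef, hste]
        refine ih (f - e) ?_ ?_ ?_ ?_
        · rw [sub_mul, mul_sub, mul_sub, hf, hfe, hef, hee, sub_self, sub_zero]
        · rw [hst.sub, hsf, hste]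
        · rw [map_sub, hφe, sub_zero]
          exact hφ
        · have hlt : LinearMap.range (LinearMap.mulRight F (f - e)) <
              LinearMap.range (LinearMap.mulRight F f) := by
            refine lt_of_le_of_ne ?_ ?_
            · rintro _ ⟨y, rfl⟩
              refine ⟨y * (f - e), ?_⟩
              change y * (f - e) * f = y * (f - e)
              rw [mul_assoc, sub_mul, hf, hef]
            · intro h
              have h4 : e ∈ LinearMap.range (LinearMap.mulRight F f) := ⟨e, hef⟩
              rw [← h] at h4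
              obtain ⟨y, hy⟩ := h4
              have h5 : y * (f - e) = e := hy
              apply he0
              calc e = e * e := hee.symm
                _ = y * (f - e) * e := by rw [h5]
                _ = 0 := by rw [mul_assoc, sub_mul, hfe, hee, sub_self, mul_zero]
          have := Submodule.finrank_lt_finrank_of_lt hlt
          omega
      · exact ⟨e, hee, hste, he0, hz, hφe⟩
  exact main _ 1 (mul_one 1) hst1 h1 le_rfl

end

end Vale.Agent.P180.H805
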