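import Vale.Agent.P180.H805.Cov

/-!
P180 H805: the covering block is the sum of the conjugates; stable conjugates.
-/

set_option linter.all false

namespace Vale.Agent.P180.H805.Cov

open Vale.Agent.P180 Vale.Agent.P180.H768.Gd Vale.Agent.P180.R2.H799 Vale.Agent.P180.R2.H365

universe u

section

variable {k : Type u} [Field k] {G : Type} [Group G] [Finite G]

theorem cj_mul_act (g h : G) (a : MonoidAlgebra k G) :
    cj k G (g * h) a = cj k G g (cj k G h a) := map_mul_act _ _ _ _

theorem cj_inv_act (g : G) (a : MonoidAlgebra k G) : cj k G g⁻¹ (cj k G g a) = a := by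
  rw [← cj_mul_act, inv_mul_cancel, map_one_act]

theorem cj_act_inv (g : G) (a : MonoidAlgebra k G) : cj k G g (cj k G g⁻¹ a) = a := by
  rw [← cj_mul_act, mul_inv_cancel, map_one_act]

/-- the conjugates -/
abbrev Orb (e : MonoidAlgebra k G) : Set (MonoidAlgebra k G) := Set.range fun g : G => cj k G g e

/-- the action on the conjugates -/
noncomputable def act (e : MonoidAlgebra k G) :
    G →* Equiv.Perm (Orb e) where
  toFun g :=
    { toFun := fun x => ⟨cj k G g x.1, by
        obtain ⟨h, hh⟩ := x.2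
        exact ⟨g * h, by rw [← hh]; exact cj_mul_act _ _ _⟩⟩
      invFun := fun x => ⟨cj k G g⁻¹ x.1, by
        obtain ⟨h, hh⟩ := x.2
        exact ⟨g⁻¹ * h, by rw [← hh]; exact cj_mul_act _ _ _⟩⟩
      left_inv := fun x => Subtype.ext (cj_inv_act _ _)
      right_inv := fun x => Subtype.ext (cj_act_inv _ _) }
  map_one' := Equiv.ext fun x => Subtype.ext (map_one_act _ _)
  map_mul' g h := Equiv.ext fun x => Subtype.ext (cj_mul_act _ _ _)

theorem act_apply (e : MonoidAlgebra k G) (g : G) (x : Set.range fun g : G => cj k G g e) :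
    (act e g x).1 = cj k G g x.1 := rfl

/-- **The covering block is the sum of the conjugates.** -/
theorem B_sum {N : Subgroup G} [N.Normal] {e B : MonoidAlgebra k G} (he : IsBlockOf N e)
    (hB : IsBlockOf (⊤ : Subgroup G) B) (hBe : B * e = e)
    [Fintype (Orb e)] :
    B = ∑ x : (Orb e), x.1 := by
  classical
  obtain ⟨c, hc⟩ : ∃ c, c = ∑ x : Orb e, x.1 := ⟨_, rfl⟩
  have hblk : ∀ x : Orb e, IsBlockOf N x.1 := by
    rintro ⟨_, g, rfl⟩
    exact IsBlockOf.conj g he
  have horth : ∀ x y : Orb e, x.1 * y.1 = if x = y then x.1 else 0 := by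
    intro x y
    rcases IsPrimIn.eq_or_mul_eq_zero ZAlg_comm (hblk x) (hblk y) with h | h
    · rw [if_pos (Subtype.ext h), ← h]
      exact (hblk x).idem.eq
    · by_cases hxy : x = y
      · subst hxy
        exact absurd ((hblk x).idem.eq.symm.trans h) (hblk x).ne_zero
      · rw [if_neg hxy, h]
  have hxc : ∀ x : Orb e, x.1 * c = x.1 := by
    intro x
    rw [hc, Finset.mul_sum, Finset.sum_eq_single x]
    · rw [horth, if_pos rfl]
    · intro y _ hy
      rw [horth, if_neg (Ne.symm hy)]
    · intro h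
      exact absurd (Finset.mem_univ _) h
  have hcc : c * c = c := by
    calc c * c = (∑ x : Orb e, x.1) * c := by rw [← hc]
      _ = ∑ x : Orb e, x.1 * c := Finset.sum_mul _ _ _
      _ = ∑ x : Orb e, x.1 := Finset.sum_congr rfl fun x _ => hxc x
      _ = c := hc.symm
  have hcF : c ∈ Fix (cj k G) ⊤ := by
    intro g _
    rw [hc, map_sum]
    exact Equiv.sum_comp (act e g) (fun x : Orb e => x.1)
  have hBx : ∀ x : Orb e, x.1 * B = x.1 := by
    rintro ⟨_, g, rfl⟩
    have h1 : B * cj k G g e = cj k G g e := by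
      have h2 : cj k G g B = B := hB.mem.2 g trivial
      calc B * cj k G g e = cj k G g B * cj k G g e := by rw [h2]
        _ = cj k G g e := by rw [← map_mul, hBe]
    change cj k G g e * B = cj k G g e
    rw [commute_of_mem (SubAlg_top _) hB.mem.2, h1]
  have hcB : c * B = c := by
    calc c * B = (∑ x : Orb e, x.1) * B := by rw [← hc]
      _ = ∑ x : Orb e, x.1 * B := Finset.sum_mul _ _ _
      _ = ∑ x : Orb e, x.1 := Finset.sum_congr rfl fun x _ => hBx x
      _ = c := hc.symm
  rcases hB.primitive c (mem_ZAlg.mpr ⟨SubAlg_top _, hcF⟩) hcc hcB with h | h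
  · have h1 := hxc ⟨e, 1, map_one_act _ _⟩
    rw [h, mul_zero] at h1
    exact absurd h1.symm he.ne_zero
  · rw [← hc]
    exact h.symm

/-- **A stable conjugate.** -/
theorem exists_stable {p : ℕ} [Fact p.Prime] [CharP k p] {N : Subgroup G} [N.Normal]
    {e B : MonoidAlgebra k G} (he : IsBlockOf N e) (hB : IsBlockOf (⊤ : Subgroup G) B)
    (hBe : B * e = e) {S : Subgroup G} (hS : IsPGroup p S) (hbr : br S B ≠ 0) :
    ∃ g : G, cj k G g e ∈ Fix (cj k G) S ∧ br S (cj k G g e) ≠ 0 := by
  classical
  have hfin : Finite (Orb e) := Set.finite_range _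
  letI := Fintype.ofFinite (Orb e)
  obtain ⟨c, hc⟩ : ∃ c, (br S B).coeff c ≠ 0 := by
    by_contra h
    push Not at h
    apply hbr
    apply MonoidAlgebra.coeff_injective
    ext x
    rw [h x]
    rfl
  rw [br_coeff] at hc
  by_cases hcS : c ∈ Subgroup.centralizer (S : Set G)
  · rw [if_pos hcS, B_sum he hB hBe, MonoidAlgebra.coeff_sum, Finsupp.finset_sum_apply] at hc
    rw [sum_fixed hS ((act e).comp S.subtype)
      (fun x : (Orb e) => x.1.coeff c) ?_
      (fun x => ∀ v, (act e).comp S.subtype v x = x) (fun _ => Iff.rfl)] at hc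
    · obtain ⟨x, -, hx⟩ := Finset.exists_ne_zero_of_sum_ne_zero hc
      have hfix : ∀ v, (act e).comp S.subtype v x = x := by
        by_contra h
        exact hx (if_neg h)
      rw [if_pos hfix] at hx
      obtain ⟨_, g, rfl⟩ := x
      refine ⟨g, fun s hs => congrArg Subtype.val (hfix ⟨s, hs⟩), fun h => hx ?_⟩
      have h1 := congrArg (fun z : MonoidAlgebra k G => z.coeff c) h
      beta_reduce at h1
      rw [br_coeff, if_pos hcS] at h1
      rw [h1]
      rfl
    · intro v x
      change (cj k G (v : G) x.1).coeff c = x.1.coeff c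
      rw [cj_coeff]
      congr 1
      have h1 := Subgroup.mem_centralizer_iff.mp hcS v v.2
      rw [mul_assoc, ← h1, ← mul_assoc, inv_mul_cancel, one_mul]
  · rw [if_neg hcS] at hc
    exact absurd rfl hc

end

end Vale.Agent.P180.H805.Cov
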