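import Vale.Agent.P180.H393.Fm
import Vale.Agent.P180.R2.H799.BN3

/-!
P180 H805: the sum of two orthogonal hyperbolic pairs; factorisations of the unipotent radicals.
-/

set_option linter.all false

namespace Vale.Agent.P180.H805.Hs

open Module Vale.Agent.P180 Vale.Agent.P180.H768.Gd Vale.Agent.P180.R2.H854
  Vale.Agent.P180.R2.H799 Vale.Agent.P180.R2.H799.BN Vale.Agent.P180.H393.Fm

section Ab

variable {k : Type*} [Field k] {G : Type*} [Group G] [Finite G]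

/-- Two factorisations of the same group. -/
theorem av_fac {U2 U1 U12 H : Subgroup G} (hk : ∀ U : Subgroup G, ((Nat.card U : ℕ) : k) ≠ 0)
    (h1 : U1 ≤ Nm U2) (h2 : H ≤ Nm U12) (a : U1 ≤ U12) (b : H ≤ U2)
    (c : ∀ g ∈ U2, ∃ v ∈ U12, ∃ x ∈ H, g = v * x)
    (d : ∀ g ∈ U12, ∃ v ∈ U2, ∃ x ∈ U1, g = v * x) :
    av k U2 * av k U1 = av k U12 * av k H := by
  have key : ∀ {V K : Subgroup G}, K ≤ Nm V → ∀ w ∈ V ⊔ K, ∃ v ∈ V, ∃ x ∈ K, w = v * x := by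
    intro V K hK w hw
    rw [Subgroup.sup_eq_closure] at hw
    induction hw using Subgroup.closure_induction with
    | one => exact ⟨1, V.one_mem, 1, K.one_mem, (one_mul 1).symm⟩
    | mem y hy =>
      rcases hy with hy | hy
      · exact ⟨y, hy, 1, K.one_mem, (mul_one y).symm⟩
      · exact ⟨1, V.one_mem, y, hy, (one_mul y).symm⟩
    | mul y z _ _ ihy ihz =>
      obtain ⟨v, hv, x, hx, rfl⟩ := ihy
      obtain ⟨v', hv', x', hx', rfl⟩ := ihz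
      refine ⟨v * (x * v' * x⁻¹), V.mul_mem hv (Nm_mul_mem (hK hx) hv'), x * x',
        K.mul_mem hx hx', ?_⟩
      group
    | inv y _ ihy =>
      obtain ⟨v, hv, x, hx, rfl⟩ := ihy
      refine ⟨x⁻¹ * v⁻¹ * x, Nm_inv_mul_mem (hK hx) (V.inv_mem hv), x⁻¹, K.inv_mem hx, ?_⟩
      group
  have hR : U2 ⊔ U1 = U12 ⊔ H := by
    apply le_antisymm
    · refine sup_le (fun g hg => ?_) (le_trans a le_sup_left)
      obtain ⟨v, hv, x, hx, rfl⟩ := c g hg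
      exact Subgroup.mul_mem _ (Subgroup.mem_sup_left hv) (Subgroup.mem_sup_right hx)
    · refine sup_le (fun g hg => ?_) (le_trans b le_sup_left)
      obtain ⟨v, hv, x, hx, rfl⟩ := d g hg
      exact Subgroup.mul_mem _ (Subgroup.mem_sup_left hv) (Subgroup.mem_sup_right hx)
  rw [av_sup (hk _) (hk _) (hk _) h1 le_sup_left le_sup_right (key h1), hR,
    av_sup (hk _) (hk _) (hk _) h2 le_sup_left le_sup_right (key h2)]

end Ab

variable {K E : Type} [Field K] [AddCommGroup E] [Module K E] {Φ : HForm K E}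
  {ι1 ι2 : Type} [Fintype ι1] [Fintype ι2]

/-- Orthogonal hyperbolic pairs. -/
structure Orth (P1 : Hyp Φ ι1) (P2 : Hyp Φ ι2) : Prop where
  xx : ∀ a b, Φ.B (P1.x a) (P2.x b) = 0
  xy : ∀ a b, Φ.B (P1.x a) (P2.y b) = 0
  yx : ∀ a b, Φ.B (P1.y a) (P2.x b) = 0
  yy : ∀ a b, Φ.B (P1.y a) (P2.y b) = 0

variable {P1 : Hyp Φ ι1} {P2 : Hyp Φ ι2}

theorem Orth.symm (h : Orth P1 P2) : Orth P2 P1 where
  xx a b := Φ.eq_zero_comm (h.xx b a)
  xy a b := Φ.eq_zero_comm (h.yx b a)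
  yx a b := Φ.eq_zero_comm (h.xy b a)
  yy a b := Φ.eq_zero_comm (h.yy b a)

/-- first component -/
def fs (K : Type) [Field K] (ι1 ι2 : Type) : (ι1 ⊕ ι2 → K) →ₗ[K] (ι1 → K) :=
  LinearMap.funLeft K K Sum.inl

/-- second component -/
def sn (K : Type) [Field K] (ι1 ι2 : Type) : (ι1 ⊕ ι2 → K) →ₗ[K] (ι2 → K) :=
  LinearMap.funLeft K K Sum.inr

theorem hh_sum {θ : K →+* K} (a b : ι1 ⊕ ι2 → K) :
    hh θ a b = hh θ (fs K ι1 ι2 a) (fs K ι1 ι2 b) + hh θ (sn K ι1 ι2 a) (sn K ι1 ι2 b) := by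
  unfold hh
  rw [Fintype.sum_sum_type]
  rfl

theorem ext_fs {a b : ι1 ⊕ ι2 → K} (h1 : fs K ι1 ι2 a = fs K ι1 ι2 b)
    (h2 : sn K ι1 ι2 a = sn K ι1 ι2 b) : a = b := by
  funext i
  rcases i with i | i
  · exact congrFun h1 i
  · exact congrFun h2 i

/-- **The sum of two orthogonal hyperbolic pairs.** -/
def sum (h : Orth P1 P2) : Hyp Φ (ι1 ⊕ ι2) where
  x := P1.x ∘ₗ fs K ι1 ι2 + P2.x ∘ₗ sn K ι1 ι2
  y := P1.y ∘ₗ fs K ι1 ι2 + P2.y ∘ₗ sn K ι1 ι2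
  xx a b := by
    simp only [LinearMap.add_apply, LinearMap.comp_apply, Φ.add_left, Φ.add_right, P1.xx, P2.xx,
      h.xx, h.symm.xx, add_zero]
  yy a b := by
    simp only [LinearMap.add_apply, LinearMap.comp_apply, Φ.add_left, Φ.add_right, P1.yy, P2.yy,
      h.yy, h.symm.yy, add_zero]
  xy a b := by
    simp only [LinearMap.add_apply, LinearMap.comp_apply, Φ.add_left, Φ.add_right, P1.xy, P2.xy,
      h.xy, h.symm.xy, add_zero, zero_add]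
    exact (hh_sum a b).symm

theorem sum_x (h : Orth P1 P2) (c : ι1 ⊕ ι2 → K) :
    (sum h).x c = P1.x (fs K ι1 ι2 c) + P2.x (sn K ι1 ι2 c) := rfl

theorem sum_y (h : Orth P1 P2) (c : ι1 ⊕ ι2 → K) :
    (sum h).y c = P1.y (fs K ι1 ι2 c) + P2.y (sn K ι1 ι2 c) := rfl

/-- pairs -/
def mk2 (a : ι1 → K) (b : ι2 → K) : ι1 ⊕ ι2 → K := Sum.elim a b

@[simp] theorem fs_mk2 (a : ι1 → K) (b : ι2 → K) : fs K ι1 ι2 (mk2 a b) = a := rfl
@[simp] theorem sn_mk2 (a : ι1 → K) (b : ι2 → K) : sn K ι1 ι2 (mk2 a b) = b := rfl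

theorem mk2_fs (c : ι1 ⊕ ι2 → K) : mk2 (fs K ι1 ι2 c) (sn K ι1 ι2 c) = c := ext_fs rfl rfl

variable [DecidableEq ι1] [DecidableEq ι2]

theorem fs_px (h : Orth P1 P2) (v : E) : fs K ι1 ι2 ((sum h).px v) = P1.px v := by
  apply hh_ext_left (θ := Φ.θ)
  intro b
  have h1 := (sum h).hh_px v (mk2 b 0)
  rw [hh_sum, fs_mk2, sn_mk2, hh_zero_right, add_zero, sum_y, fs_mk2, sn_mk2, map_zero,
    add_zero] at h1
  rw [h1, P1.hh_px]

theorem sn_px (h : Orth P1 P2) (v : E) : sn K ι1 ι2 ((sum h).px v) = P2.px v := by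
  apply hh_ext_left (θ := Φ.θ)
  intro b
  have h1 := (sum h).hh_px v (mk2 0 b)
  rw [hh_sum, fs_mk2, sn_mk2, hh_zero_right, zero_add, sum_y, fs_mk2, sn_mk2, map_zero,
    zero_add] at h1
  rw [h1, P2.hh_px]

theorem fs_py (h : Orth P1 P2) (v : E) : fs K ι1 ι2 ((sum h).py v) = P1.py v := by
  apply hh_ext_left (θ := Φ.θ)
  intro b
  have h1 := (sum h).hh_py v (mk2 b 0)
  rw [hh_sum, fs_mk2, sn_mk2, hh_zero_right, add_zero, sum_x, fs_mk2, sn_mk2, map_zero,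
    add_zero] at h1
  rw [h1, P1.hh_py]

theorem sn_py (h : Orth P1 P2) (v : E) : sn K ι1 ι2 ((sum h).py v) = P2.py v := by
  apply hh_ext_left (θ := Φ.θ)
  intro b
  have h1 := (sum h).hh_py v (mk2 0 b)
  rw [hh_sum, fs_mk2, sn_mk2, hh_zero_right, zero_add, sum_x, fs_mk2, sn_mk2, map_zero,
    zero_add] at h1
  rw [h1, P2.hh_py]

theorem px_eq_zero (h : Orth P1 P2) {v : E} : (sum h).px v = 0 ↔ P1.px v = 0 ∧ P2.px v = 0 := by
  constructor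
  · intro h1
    rw [← fs_px h, ← sn_px h, h1, map_zero, map_zero]
    exact ⟨rfl, rfl⟩
  · rintro ⟨h1, h2⟩
    apply ext_fs
    · rw [fs_px, h1, map_zero]
    · rw [sn_px, h2, map_zero]

theorem py_eq_zero (h : Orth P1 P2) {v : E} : (sum h).py v = 0 ↔ P1.py v = 0 ∧ P2.py v = 0 := by
  constructor
  · intro h1
    rw [← fs_py h, ← sn_py h, h1, map_zero, map_zero]
    exact ⟨rfl, rfl⟩
  · rintro ⟨h1, h2⟩
    apply ext_fs
    · rw [fs_py, h1, map_zero]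
    · rw [sn_py, h2, map_zero]

theorem py2_x1 (h : Orth P1 P2) (a : ι1 → K) : P2.py (P1.x a) = 0 := by
  apply hh_ext_left (θ := Φ.θ)
  intro b
  rw [P2.hh_py, h.xx, mul_zero, hh_zero_left]

theorem px2_x1 (h : Orth P1 P2) (a : ι1 → K) : P2.px (P1.x a) = 0 := by
  apply hh_ext_left (θ := Φ.θ)
  intro b
  rw [P2.hh_px, h.xy, hh_zero_left]

theorem py2_y1 (h : Orth P1 P2) (a : ι1 → K) : P2.py (P1.y a) = 0 := by
  apply hh_ext_left (θ := Φ.θ)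
  intro b
  rw [P2.hh_py, h.yx, mul_zero, hh_zero_left]

theorem px2_y1 (h : Orth P1 P2) (a : ι1 → K) : P2.px (P1.y a) = 0 := by
  apply hh_ext_left (θ := Φ.θ)
  intro b
  rw [P2.hh_px, h.yy, hh_zero_left]

theorem pw2_x1 (h : Orth P1 P2) (a : ι1 → K) : P2.pw (P1.x a) = P1.x a := by
  unfold Hyp.pw
  rw [px2_x1 h, py2_x1 h, map_zero, map_zero, sub_zero, sub_zero]

/-- The group of the elements which fix the vectors in `X`. -/
def St (X : Set E) : Subgroup (E ≃ₗ[K] E) where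
  carrier := {g | ∀ v ∈ X, g v = v}
  one_mem' := fun _ _ => rfl
  mul_mem' := by
    intro a b ha hb v hv
    change a (b v) = v
    rw [hb v hv, ha v hv]
  inv_mem' := by
    intro a ha v hv
    have h1 : a⁻¹ (a v) = v := LinearEquiv.symm_apply_apply a v
    rwa [ha v hv] at h1

theorem mem_St {X : Set E} {g : E ≃ₗ[K] E} : g ∈ St X ↔ ∀ v ∈ X, g v = v := Iff.rfl

/-- The group of the maps `(a, b) ↦ (a, b + φ a)`. -/
def Up (K : Type) [Field K] (ι1 ι2 : Type) :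
    Subgroup ((ι1 ⊕ ι2 → K) ≃ₗ[K] (ι1 ⊕ ι2 → K)) where
  carrier := {g | (∀ c, fs K ι1 ι2 (g c) = fs K ι1 ι2 c) ∧ ∀ b, g (mk2 0 b) = mk2 0 b}
  one_mem' := ⟨fun _ => rfl, fun _ => rfl⟩
  mul_mem' := by
    rintro a b ⟨h1, h2⟩ ⟨h1', h2'⟩
    refine ⟨fun c => ?_, fun c => ?_⟩
    · change fs K ι1 ι2 (a (b c)) = _
      rw [h1, h1']
    · change a (b _) = _
      rw [h2', h2]
  inv_mem' := by
    rintro a ⟨h1, h2⟩
    have e1 : ∀ c, a (a⁻¹ c) = c := fun c => LinearEquiv.apply_symm_apply a c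
    have e2 : ∀ c, a⁻¹ (a c) = c := fun c => LinearEquiv.symm_apply_apply a c
    refine ⟨fun c => ?_, fun c => ?_⟩
    · rw [← h1 (a⁻¹ c), e1]
    · rw [← h2 c, e2, h2]

/-- the element of `Up` given by `φ` -/
def up (φ : (ι1 → K) →ₗ[K] (ι2 → K)) : (ι1 ⊕ ι2 → K) ≃ₗ[K] (ι1 ⊕ ι2 → K) :=
  LinearEquiv.ofLinear
    { toFun := fun c => mk2 (fs K ι1 ι2 c) (sn K ι1 ι2 c + φ (fs K ι1 ι2 c))
      map_add' := fun c c' => ext_fs (by simp) (by simp; abel)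
      map_smul' := fun r c => ext_fs (by simp) (by simp) }
    { toFun := fun c => mk2 (fs K ι1 ι2 c) (sn K ι1 ι2 c - φ (fs K ι1 ι2 c))
      map_add' := fun c c' => ext_fs (by simp) (by simp; abel)
      map_smul' := fun r c => ext_fs (by simp) (by simp [smul_sub]) }
    (by
      apply LinearMap.ext
      intro c
      refine ext_fs ?_ ?_ <;> simp)
    (by
      apply LinearMap.ext
      intro c
      refine ext_fs ?_ ?_ <;> simp)

theorem up_apply (φ : (ι1 → K) →ₗ[K] (ι2 → K)) (c : ι1 ⊕ ι2 → K) :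
    up φ c = mk2 (fs K ι1 ι2 c) (sn K ι1 ι2 c + φ (fs K ι1 ι2 c)) := rfl

theorem up_mem (φ : (ι1 → K) →ₗ[K] (ι2 → K)) : up φ ∈ Up K ι1 ι2 :=
  ⟨fun c => rfl, fun b => by rw [up_apply, fs_mk2, sn_mk2, map_zero, add_zero]⟩

theorem exists_up {g : (ι1 ⊕ ι2 → K) ≃ₗ[K] (ι1 ⊕ ι2 → K)} (hg : g ∈ Up K ι1 ι2) :
    ∃ φ : (ι1 → K) →ₗ[K] (ι2 → K), g = up φ := by
  let i1 : (ι1 → K) →ₗ[K] (ι1 ⊕ ι2 → K) :=
    { toFun := fun a => mk2 a 0
      map_add' := fun a b => ext_fs (by simp) (by simp)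
      map_smul' := fun r a => ext_fs (by simp) (by simp) }
  refine ⟨sn K ι1 ι2 ∘ₗ g.toLinearMap ∘ₗ i1, ?_⟩
  ext1 c
  rw [up_apply]
  have h1 : g c = g (mk2 (fs K ι1 ι2 c) 0) + g (mk2 0 (sn K ι1 ι2 c)) := by
    rw [← map_add]
    congr 1
    refine ext_fs ?_ ?_ <;> simp
  apply ext_fs
  · rw [hg.1, fs_mk2]
  · rw [h1, hg.2, map_add, sn_mk2, sn_mk2, add_comm]
    rfl

/-! ### the factorisation -/

variable (h : Orth P1 P2) (X : Set E)

include h in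
theorem U1_le (hX : ∀ v ∈ X, P1.px v = 0 ∧ P1.py v = 0 ∧ P2.px v = 0 ∧ P2.py v = 0) :
    P1.UU ⊓ P2.Fx ⊓ St X ≤ (sum h).UU ⊓ St X := by
  rintro g ⟨⟨h1, h2⟩, h3⟩
  refine ⟨⟨h1.1, fun c => ?_, fun v hv => ?_⟩, h3⟩
  · rw [sum_x, map_add, h1.2.1, h2.2.1]
  · obtain ⟨a, ha⟩ := h1.2.2 v ((py_eq_zero h).mp hv).1
    refine ⟨mk2 a 0, ?_⟩
    rw [sum_x, fs_mk2, sn_mk2, map_zero, add_zero]
    exact ha

theorem adjL_up (φ : (ι1 → K) →ₗ[K] (ι2 → K)) (b : ι1 → K) :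
    adjL Φ.θ (up φ) (mk2 b 0) = mk2 b 0 := by
  apply hh_ext_right Φ.θθ
  intro a
  rw [hh_adjL' Φ.θθ, hh_sum, hh_sum a]
  have h1 : (up φ)⁻¹ ∈ Up K ι1 ι2 := (Up K ι1 ι2).inv_mem (up_mem φ)
  rw [h1.1, sn_mk2, hh_zero_right, hh_zero_right]

theorem gl_up_x1 (φ : (ι1 → K) →ₗ[K] (ι2 → K)) (a : ι1 → K) :
    (sum h).gl (up φ) (P1.x a) = P1.x a + P2.x (φ a) := by
  have h1 : P1.x a = (sum h).x (mk2 a 0) := by
    rw [sum_x, fs_mk2, sn_mk2, map_zero, add_zero]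
  rw [h1, Hyp.gl_x, up_apply, sum_x, fs_mk2, sn_mk2, fs_mk2, sn_mk2, zero_add, ← h1]

theorem gl_up_x2 (φ : (ι1 → K) →ₗ[K] (ι2 → K)) (b : ι2 → K) :
    (sum h).gl (up φ) (P2.x b) = P2.x b := by
  have h1 : P2.x b = (sum h).x (mk2 0 b) := by
    rw [sum_x, fs_mk2, sn_mk2, map_zero, zero_add]
  rw [h1, Hyp.gl_x, (up_mem φ).2]

/-- the element of `Up` moves the vectors orthogonal to `A2` by vectors of `A2` -/
theorem gl_up_sub (φ : (ι1 → K) →ₗ[K] (ι2 → K)) {v : E} (hv : P2.py v = 0) :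
    (sum h).gl (up φ) v - v = P2.x (φ (P1.px v)) := by
  have h2 : (sum h).py v = mk2 (P1.py v) 0 := by
    rw [← mk2_fs ((sum h).py v), fs_py, sn_py, hv]
  rw [Hyp.gl_apply, h2, adjL_up, sub_self, map_zero, add_zero, add_sub_cancel_left, map_sub,
    sum_x, sum_x, up_apply, fs_mk2, sn_mk2, fs_px, sn_px, map_add]
  abel

theorem gl_up_mem (hX : ∀ v ∈ X, P1.px v = 0 ∧ P1.py v = 0 ∧ P2.px v = 0 ∧ P2.py v = 0)
    (φ : (ι1 → K) →ₗ[K] (ι2 → K)) : (sum h).gl (up φ) ∈ P2.UU ⊓ St X := by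
  refine ⟨⟨Hyp.gl_mem _ _, fun b => gl_up_x2 h φ b, fun v hv => ⟨_, gl_up_sub h φ hv⟩⟩,
    fun v hv => ?_⟩
  obtain ⟨h1, h2, h3, h4⟩ := hX v hv
  exact (sum h).gl_w _ ((px_eq_zero h).mpr ⟨h1, h3⟩) ((py_eq_zero h).mpr ⟨h2, h4⟩)

theorem H_le (hX : ∀ v ∈ X, P1.px v = 0 ∧ P1.py v = 0 ∧ P2.px v = 0 ∧ P2.py v = 0) :
    (Up K ι1 ι2).map (sum h).gl ≤ P2.UU ⊓ St X := by
  rintro _ ⟨g, hg, rfl⟩
  obtain ⟨φ, rfl⟩ := exists_up hg
  exact gl_up_mem h X hX φ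

theorem U2_fac (hX : ∀ v ∈ X, P1.px v = 0 ∧ P1.py v = 0 ∧ P2.px v = 0 ∧ P2.py v = 0)
    {g : E ≃ₗ[K] E} (hg : g ∈ P2.UU ⊓ St X) :
    ∃ v ∈ (sum h).UU ⊓ St X, ∃ x ∈ (Up K ι1 ι2).map (sum h).gl, g = v * x := by
  obtain ⟨hg1, hg2⟩ := hg
  let φ : (ι1 → K) →ₗ[K] (ι2 → K) := P2.px ∘ₗ g.toLinearMap ∘ₗ P1.x
  have hφ : ∀ a, g (P1.x a) = P1.x a + P2.x (φ a) := by
    intro a
    obtain ⟨b, hb⟩ := hg1.2.2 (P1.x a) (py2_x1 h a)
    have h1 : φ a = b := by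
      change P2.px (g (P1.x a)) = b
      have h2 : g (P1.x a) = P1.x a + P2.x b := by rw [← hb]; abel
      rw [h2, map_add, px2_x1 h, P2.px_x, zero_add]
    rw [h1, ← hb]
    abel
  let t := (sum h).gl (up φ)
  have ht : t ∈ P2.UU ⊓ St X := gl_up_mem h X hX φ
  have ht' : t⁻¹ ∈ P2.UU ⊓ St X := (P2.UU ⊓ St X).inv_mem ht
  have e1 : ∀ z, t (t⁻¹ z) = z := fun z => LinearEquiv.apply_symm_apply t z
  have e2 : ∀ z, t⁻¹ (t z) = z := fun z => LinearEquiv.symm_apply_apply t z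
  refine ⟨g * t⁻¹, ⟨⟨(IsoG Φ).mul_mem hg1.1 ht'.1.1, fun c => ?_, fun v hv => ?_⟩,
    (St X).mul_mem hg2 ht'.2⟩, t, ⟨up φ, up_mem φ, rfl⟩, by group⟩
  · have h1 : ∀ a, (g * t⁻¹) (P1.x a) = P1.x a := by
      intro a
      have h2 : t (P1.x a - P2.x (φ a)) = P1.x a := by
        rw [map_sub, gl_up_x1, gl_up_x2]
        abel
      change g (t⁻¹ (P1.x a)) = P1.x a
      conv_lhs => rw [← h2]
      rw [e2, map_sub, hφ, hg1.2.1]
      abel
    have h2 : ∀ b, (g * t⁻¹) (P2.x b) = P2.x b := by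
      intro b
      change g (t⁻¹ (P2.x b)) = P2.x b
      rw [ht'.1.2.1, hg1.2.1]
    rw [sum_x, map_add, h1, h2]
  · obtain ⟨hv1, hv2⟩ := (py_eq_zero h).mp hv
    obtain ⟨b, hb⟩ := ht'.1.2.2 v hv2
    obtain ⟨b', hb'⟩ := hg1.2.2 v hv2
    refine ⟨mk2 0 (b + b'), ?_⟩
    rw [sum_x, fs_mk2, sn_mk2, map_zero, zero_add, map_add, ← hb, ← hb']
    change g (t⁻¹ v) - v = _
    have h3 : t⁻¹ v = v + P2.x b := by rw [← hb]; abel
    rw [h3, map_add, hg1.2.1]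
    abel

theorem U12_fac (hX : ∀ v ∈ X, P1.px v = 0 ∧ P1.py v = 0 ∧ P2.px v = 0 ∧ P2.py v = 0)
    {g : E ≃ₗ[K] E} (hg : g ∈ (sum h).UU ⊓ St X) :
    ∃ v ∈ P2.UU ⊓ St X, ∃ x ∈ P1.UU ⊓ P2.Fx ⊓ St X, g = v * x := by
  have pw_add : ∀ v w, P2.pw (v + w) = P2.pw v + P2.pw w := by
    intro v w
    unfold Hyp.pw
    simp only [map_add]
    abel
  have pw_smul : ∀ (c : K) v, P2.pw (c • v) = c • P2.pw v := by
    intro c v
    unfold Hyp.pw
    simp only [map_smul, smul_sub]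
  have pw_pw : ∀ v, P2.px v = 0 → P2.py v = 0 → P2.pw v = v := by
    intro v h1 h2
    unfold Hyp.pw
    rw [h1, h2, map_zero, map_zero, sub_zero, sub_zero]
  have pw_x : ∀ a, P2.pw (P2.x a) = 0 := by
    intro a
    unfold Hyp.pw
    rw [P2.px_x, P2.py_x, map_zero, sub_zero, sub_self]
  have pw_y : ∀ a, P2.pw (P2.y a) = 0 := by
    intro a
    unfold Hyp.pw
    rw [P2.px_y, P2.py_y, map_zero, sub_zero, sub_self]
  -- elements of the radical fix `x2`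
  have hfix2 : ∀ g ∈ (sum h).UU, ∀ b, g (P2.x b) = P2.x b := by
    intro g hg b
    have h1 := hg.2.1 (mk2 0 b)
    rwa [sum_x, fs_mk2, sn_mk2, map_zero, zero_add] at h1
  have hfix1 : ∀ g ∈ (sum h).UU, ∀ b, g (P1.x b) = P1.x b := by
    intro g hg b
    have h1 := hg.2.1 (mk2 b 0)
    rwa [sum_x, fs_mk2, sn_mk2, map_zero, add_zero] at h1
  -- the linear map
  let fL : (E ≃ₗ[K] E) → E →ₗ[K] E := fun g =>
    { toFun := fun v => P2.x (P2.px v) + P2.pw (g (P2.pw v)) + P2.y (P2.py v)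
      map_add' := fun v w => by
        simp only [map_add, pw_add]
        abel
      map_smul' := fun c v => by
        simp only [map_smul, pw_smul, smul_add, RingHom.id_apply] }
  have fL_apply : ∀ g v, fL g v = P2.x (P2.px v) + P2.pw (g (P2.pw v)) + P2.y (P2.py v) :=
    fun _ _ => rfl
  have px_fL : ∀ g v, P2.px (fL g v) = P2.px v := by
    intro g v
    rw [fL_apply, map_add, map_add, P2.px_x, P2.px_pw, P2.px_y, add_zero, add_zero]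
  have py_fL : ∀ g v, P2.py (fL g v) = P2.py v := by
    intro g v
    rw [fL_apply, map_add, map_add, P2.py_x, P2.py_pw, P2.py_y, zero_add, zero_add]
  have pw_fL : ∀ g v, P2.pw (fL g v) = P2.pw (g (P2.pw v)) := by
    intro g v
    rw [fL_apply, pw_add, pw_add, pw_x, pw_y, zero_add, add_zero,
      pw_pw _ (P2.px_pw _) (P2.py_pw _)]
  -- on the complement
  have hgw : ∀ g ∈ (sum h).UU, ∀ w, P2.px w = 0 → P2.py w = 0 →
      g w = P2.x (P2.px (g w)) + P2.pw (g w) := by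
    intro g hg w h1 h2
    have h3 : P2.py (g w) = 0 := by rw [P2.py_of_fix hg.1 (hfix2 g hg), h2]
    conv_lhs => rw [P2.eq_add (g w)]
    rw [h3, map_zero, add_zero]
  have hinv : ∀ g ∈ (sum h).UU, ∀ v, fL g (fL g⁻¹ v) = v := by
    intro g hg v
    have hg' : g⁻¹ ∈ (sum h).UU := (sum h).UU.inv_mem hg
    have e1 : ∀ z, g (g⁻¹ z) = z := fun z => LinearEquiv.apply_symm_apply g z
    apply P2.ext_coord
    · rw [px_fL, px_fL]
    · rw [pw_fL, pw_fL]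
      have h1 := hgw g⁻¹ hg' (P2.pw v) (P2.px_pw v) (P2.py_pw v)
      have h2 : P2.pw (g⁻¹ (P2.pw v)) = g⁻¹ (P2.pw v) - P2.x (P2.px (g⁻¹ (P2.pw v))) := by
        nth_rewrite 2 [h1]
        abel
      rw [h2, map_sub, e1, hfix2 g hg]
      have h3 : ∀ w a, P2.pw (w - P2.x a) = P2.pw w := by
        intro w a
        have h4 : w - P2.x a = w + P2.x (-a) := by rw [map_neg]; abel
        rw [h4, pw_add, pw_x, add_zero]
      rw [h3, pw_pw _ (P2.px_pw _) (P2.py_pw _)]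
    · rw [py_fL, py_fL]
  have hinv' : ∀ g ∈ (sum h).UU, ∀ v, fL g⁻¹ (fL g v) = v := by
    intro g hg v
    have := hinv g⁻¹ ((sum h).UU.inv_mem hg) v
    rwa [inv_inv] at this
  obtain ⟨hg1, hg2⟩ := hg
  let f : E ≃ₗ[K] E := LinearEquiv.ofLinear (fL g) (fL g⁻¹)
    (LinearMap.ext fun v => hinv g hg1 v) (LinearMap.ext fun v => hinv' g hg1 v)
  have hf : ∀ v, f v = P2.x (P2.px v) + P2.pw (g (P2.pw v)) + P2.y (P2.py v) := fun _ => rfl
  have hfI : f ∈ IsoG Φ := by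
    intro v w
    rw [P2.B_coord (f v), P2.B_coord v w]
    have h1 : P2.px (f v) = P2.px v := px_fL g v
    have h2 : P2.py (f v) = P2.py v := py_fL g v
    have h3 : P2.px (f w) = P2.px w := px_fL g w
    have h4 : P2.py (f w) = P2.py w := py_fL g w
    have h5 : P2.pw (f v) = P2.pw (g (P2.pw v)) := pw_fL g v
    have h6 : P2.pw (f w) = P2.pw (g (P2.pw w)) := pw_fL g w
    rw [h1, h2, h3, h4, h5, h6]
    have h7 := hg1.1 (P2.pw v) (P2.pw w)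
    rw [P2.B_coord (g (P2.pw v)), P2.py_of_fix hg1.1 (hfix2 g hg1) (P2.pw v),
      P2.py_of_fix hg1.1 (hfix2 g hg1) (P2.pw w), P2.py_pw, P2.py_pw, hh_zero_left,
      hh_zero_right, mul_zero, zero_add, add_zero] at h7
    rw [h7]
  have hfx : f ∈ P2.Fx := by
    refine ⟨hfI, fun a => ?_, fun a => ?_⟩
    · rw [hf, P2.px_x, P2.py_x, pw_x, map_zero, map_zero, add_zero]
      have : P2.pw (0 : E) = 0 := by
        have := pw_x 0
        rwa [map_zero] at this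
      rw [this, add_zero]
    · rw [hf, P2.px_y, P2.py_y, pw_y, map_zero, map_zero, zero_add]
      have : P2.pw (0 : E) = 0 := by
        have := pw_x 0
        rwa [map_zero] at this
      rw [this, zero_add]
  have hfX : f ∈ St X := by
    intro v hv
    obtain ⟨h1, h2, h3, h4⟩ := hX v hv
    rw [hf, h3, h4, map_zero, map_zero, add_zero, zero_add, pw_pw v h3 h4, hg2 v hv,
      pw_pw v h3 h4]
  have hf1 : f ∈ P1.UU := by
    refine ⟨hfI, fun a => ?_, fun v hv => ?_⟩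
    · rw [hf, px2_x1 h, py2_x1 h, pw2_x1 h, map_zero, map_zero, add_zero, zero_add,
        hfix1 g hg1, pw2_x1 h]
    · have h1 : (sum h).py (P2.pw v) = 0 := by
        rw [py_eq_zero h]
        refine ⟨?_, P2.py_pw v⟩
        unfold Hyp.pw
        rw [map_sub, map_sub, hv, py2_x1 h.symm, py2_y1 h.symm, sub_zero, sub_zero]
      obtain ⟨c, hc⟩ := hg1.2.2 _ h1
      rw [sum_x] at hc
      refine ⟨fs K ι1 ι2 c, ?_⟩
      have h2 : g (P2.pw v) = P2.pw v + P1.x (fs K ι1 ι2 c) + P2.x (sn K ι1 ι2 c) := by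
        rw [add_assoc, ← hc]
        abel
      rw [hf, h2, pw_add, pw_add, pw_x, pw2_x1 h, pw_pw _ (P2.px_pw _) (P2.py_pw _)]
      nth_rewrite 4 [P2.eq_add v]
      abel
  have hfinv : f⁻¹ ∈ IsoG Φ := (IsoG Φ).inv_mem hfI
  have e1 : ∀ z, f (f⁻¹ z) = z := fun z => LinearEquiv.apply_symm_apply f z
  refine ⟨g * f⁻¹, ⟨⟨(IsoG Φ).mul_mem hg1.1 hfinv, fun b => ?_, fun v hv => ?_⟩,
    (St X).mul_mem hg2 ((St X).inv_mem hfX)⟩, f, ⟨⟨hf1, hfx⟩, hfX⟩, by group⟩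
  · change g (f⁻¹ (P2.x b)) = P2.x b
    rw [(P2.Fx.inv_mem hfx).2.1, hfix2 g hg1]
  · have h1 : P2.py (f⁻¹ v) = 0 := by
      rw [P2.py_of_fix hfinv (P2.Fx.inv_mem hfx).2.1, hv]
    refine ⟨P2.px (g (P2.pw (f⁻¹ v))), ?_⟩
    change g (f⁻¹ v) - v = _
    nth_rewrite 2 [← e1 v]
    rw [hf, h1, map_zero, add_zero]
    nth_rewrite 1 [P2.eq_add (f⁻¹ v)]
    rw [h1, map_zero, add_zero, map_add, hfix2 g hg1]
    nth_rewrite 1 [hgw g hg1 (P2.pw (f⁻¹ v)) (P2.px_pw _) (P2.py_pw _)]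
    abel

/-- **The two factorisations.** -/
theorem av_mul [Finite (E ≃ₗ[K] E)] {k : Type*} [Field k]
    (hk : ∀ U : Subgroup (E ≃ₗ[K] E), ((Nat.card U : ℕ) : k) ≠ 0)
    (hX : ∀ v ∈ X, P1.px v = 0 ∧ P1.py v = 0 ∧ P2.px v = 0 ∧ P2.py v = 0) :
    av k (P2.UU ⊓ St X) * av k (P1.UU ⊓ P2.Fx ⊓ St X) =
      av k ((sum h).UU ⊓ St X) * av k ((Up K ι1 ι2).map (sum h).gl) := by
  refine av_fac hk ?_ ?_ (U1_le h X hX) (H_le h X hX) (fun g hg => U2_fac h X hX hg)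
    (fun g hg => U12_fac h X hX hg)
  · rintro g ⟨⟨-, h2⟩, h3⟩
    refine mem_Nm_of_conj fun z hz => ?_
    have h4 := (P2.Fx).inv_mem h2
    have h5 := P2.Fx_norm h4 hz.1
    rw [inv_inv] at h5
    have h6 : g⁻¹ * z * g ∈ St X :=
      (St X).mul_mem ((St X).mul_mem ((St X).inv_mem h3) hz.2) h3
    exact ⟨h5, h6⟩
  · rintro _ ⟨g, hg, rfl⟩
    refine mem_Nm_of_conj fun z hz => ?_
    have h1 := (sum h).gl_norm g⁻¹ hz.1
    rw [map_inv, inv_inv] at h1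
    have h2 : (sum h).gl g ∈ St X := by
      obtain ⟨φ, rfl⟩ := exists_up hg
      exact (gl_up_mem h X hX φ).2
    exact ⟨h1, (St X).mul_mem ((St X).mul_mem ((St X).inv_mem h2) hz.2) h2⟩

end Vale.Agent.P180.H805.Hs
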