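import Vale.Agent.P180.H805.Hs
import Vale.Agent.P180.H19.AtwoB
import Vale.Agent.P180.H897.TowDef

/-!
P180 H805: products of the idempotents of a tower, in terms of one hyperbolic pair.
-/

set_option linter.all false

namespace Vale.Agent.P180.H805.Hs

open Module Vale.Agent.P180 Vale.Agent.P180.H768.Gd Vale.Agent.P180.R2.H854
  Vale.Agent.P180.R2.H799 Vale.Agent.P180.R2.H799.BN Vale.Agent.P180.H393.Fm
open Vale.Agent.P180.H19.Atwo (mp mp_single)

section Mp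

variable {k : Type*} [Field k] {G H : Type} [Group G] [Group H] [Finite G] [Finite H]

theorem mp_av (f : H →* G) (hf : Function.Injective f) (V : Subgroup H) :
    mp f (av k V) = av k (V.map f) := by
  unfold av
  letI := Fintype.ofFinite V
  letI := Fintype.ofFinite (V.map f)
  rw [map_smul, map_sum, Nat.card_congr (V.equivMapOfInjective f hf).toEquiv]
  congr 1
  refine Fintype.sum_equiv (V.equivMapOfInjective f hf).toEquiv
    (fun v : V => mp f (MonoidAlgebra.single (v : H) 1))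
    (fun w : V.map f => MonoidAlgebra.single (w : G) 1) fun v => ?_
  rw [mp_single]
  rfl

/-- `mp f z` commutes with `x` if all the images do -/
theorem mp_comm_of {f : H →* G} {x : MonoidAlgebra k G}
    (h : ∀ g : H, MonoidAlgebra.single (f g) (1 : k) * x = x * MonoidAlgebra.single (f g) 1)
    (z : MonoidAlgebra k H) : mp f z * x = x * mp f z := by
  exact Vale.Agent.P180.H19.Atwo.mp_rel h z

theorem mp_comm_mp {H' : Type} [Group H'] [Finite H'] {f : H →* G} {f' : H' →* G}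
    (h : ∀ a b, f a * f' b = f' b * f a) (z : MonoidAlgebra k H) (z' : MonoidAlgebra k H') :
    mp f z * mp f' z' = mp f' z' * mp f z := by
  refine mp_comm_of (fun g => ?_) z
  refine (mp_comm_of (fun g' => ?_) z').symm
  rw [MonoidAlgebra.single_mul_single, MonoidAlgebra.single_mul_single, h]

/-- the average over a normalised subgroup commutes with the image -/
theorem mp_av_comm {f : H →* G} {V : Subgroup G} (h : ∀ g, f g ∈ Nm V) (z : MonoidAlgebra k H) :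
    mp f z * av k V = av k V * mp f z := by
  refine mp_comm_of (fun g => ?_) z
  exact av_comm (L := Nm V) le_rfl (single_mem_SubAlg (h g) 1)

theorem mp_mp {L : Type} [Group L] (f : H →* G) (g : L →* H) (z : MonoidAlgebra k L) :
    mp f (mp g z) = mp (f.comp g) z := by
  induction z using MonoidAlgebra.induction_linear with
  | zero => simp only [map_zero]
  | add x y hx hy => rw [map_add, map_add, map_add, hx, hy]
  | single a r =>
    rw [mp_single, mp_single, mp_single]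
    rfl

end Mp

variable {K E : Type} [Field K] [AddCommGroup E] [Module K E] {Φ : HForm K E}
  {ι1 ι2 : Type} [Fintype ι1] [Fintype ι2]

section Blk

variable (K ι1 ι2)

/-- the first block -/
def blk1 : ((ι1 → K) ≃ₗ[K] (ι1 → K)) →* ((ι1 ⊕ ι2 → K) ≃ₗ[K] (ι1 ⊕ ι2 → K)) where
  toFun g := LinearEquiv.ofLinear
    { toFun := fun c => mk2 (g (fs K ι1 ι2 c)) (sn K ι1 ι2 c)
      map_add' := fun c c' => ext_fs (by simp) (by simp)
      map_smul' := fun r c => ext_fs (by simp) (by simp) }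
    { toFun := fun c => mk2 (g⁻¹ (fs K ι1 ι2 c)) (sn K ι1 ι2 c)
      map_add' := fun c c' => ext_fs (by simp) (by simp)
      map_smul' := fun r c => ext_fs (by simp) (by simp) }
    (LinearMap.ext fun c => ext_fs (LinearEquiv.apply_symm_apply g _) rfl)
    (LinearMap.ext fun c => ext_fs (LinearEquiv.symm_apply_apply g _) rfl)
  map_one' := LinearEquiv.ext fun c => ext_fs rfl rfl
  map_mul' g g' := LinearEquiv.ext fun c => ext_fs rfl rfl

/-- the second block -/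
def blk2 : ((ι2 → K) ≃ₗ[K] (ι2 → K)) →* ((ι1 ⊕ ι2 → K) ≃ₗ[K] (ι1 ⊕ ι2 → K)) where
  toFun g := LinearEquiv.ofLinear
    { toFun := fun c => mk2 (fs K ι1 ι2 c) (g (sn K ι1 ι2 c))
      map_add' := fun c c' => ext_fs (by simp) (by simp)
      map_smul' := fun r c => ext_fs (by simp) (by simp) }
    { toFun := fun c => mk2 (fs K ι1 ι2 c) (g⁻¹ (sn K ι1 ι2 c))
      map_add' := fun c c' => ext_fs (by simp) (by simp)
      map_smul' := fun r c => ext_fs (by simp) (by simp) }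
    (LinearMap.ext fun c => ext_fs rfl (LinearEquiv.apply_symm_apply g _))
    (LinearMap.ext fun c => ext_fs rfl (LinearEquiv.symm_apply_apply g _))
  map_one' := LinearEquiv.ext fun c => ext_fs rfl rfl
  map_mul' g g' := LinearEquiv.ext fun c => ext_fs rfl rfl

end Blk

theorem blk1_apply (g : (ι1 → K) ≃ₗ[K] (ι1 → K)) (c : ι1 ⊕ ι2 → K) :
    blk1 K ι1 ι2 g c = mk2 (g (fs K ι1 ι2 c)) (sn K ι1 ι2 c) := rfl

theorem blk2_apply (g : (ι2 → K) ≃ₗ[K] (ι2 → K)) (c : ι1 ⊕ ι2 → K) :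
    blk2 K ι1 ι2 g c = mk2 (fs K ι1 ι2 c) (g (sn K ι1 ι2 c)) := rfl

theorem blk_comm (g : (ι1 → K) ≃ₗ[K] (ι1 → K)) (g' : (ι2 → K) ≃ₗ[K] (ι2 → K)) :
    blk1 K ι1 ι2 g * blk2 K ι1 ι2 g' = blk2 K ι1 ι2 g' * blk1 K ι1 ι2 g :=
  LinearEquiv.ext fun c => ext_fs rfl rfl

theorem blk1_injective : Function.Injective (blk1 K ι1 ι2) := by
  intro g g' h
  ext1 a
  have := congrArg (fun z : (ι1 ⊕ ι2 → K) ≃ₗ[K] (ι1 ⊕ ι2 → K) => fs K ι1 ι2 (z (mk2 a 0))) h
  exact this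

theorem blk2_injective : Function.Injective (blk2 K ι1 ι2) := by
  intro g g' h
  ext1 a
  have := congrArg (fun z : (ι1 ⊕ ι2 → K) ≃ₗ[K] (ι1 ⊕ ι2 → K) => sn K ι1 ι2 (z (mk2 0 a))) h
  exact this

theorem blk1_Nm [Finite K] (g : (ι1 → K) ≃ₗ[K] (ι1 → K)) : blk1 K ι1 ι2 g ∈ Nm (Up K ι1 ι2) := by
  refine mem_Nm_of_conj ?_
  rintro z ⟨h1, h2⟩
  have e1 : ∀ c, (blk1 K ι1 ι2 g)⁻¹ c = mk2 (g⁻¹ (fs K ι1 ι2 c)) (sn K ι1 ι2 c) := by
    intro c
    rw [← map_inv, blk1_apply]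
  refine ⟨fun c => ?_, fun b => ?_⟩
  · change fs K ι1 ι2 ((blk1 K ι1 ι2 g)⁻¹ (z (blk1 K ι1 ι2 g c))) = _
    rw [e1, fs_mk2, h1, blk1_apply, fs_mk2]
    exact LinearEquiv.symm_apply_apply g _
  · change (blk1 K ι1 ι2 g)⁻¹ (z (blk1 K ι1 ι2 g (mk2 0 b))) = _
    have h3 : blk1 K ι1 ι2 g (mk2 0 b) = mk2 0 b := by
      rw [blk1_apply, fs_mk2, sn_mk2, map_zero]
    rw [h3, h2, e1, fs_mk2, sn_mk2, map_zero]

theorem blk2_Nm [Finite K] (g : (ι2 → K) ≃ₗ[K] (ι2 → K)) : blk2 K ι1 ι2 g ∈ Nm (Up K ι1 ι2) := by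
  refine mem_Nm_of_conj ?_
  rintro z ⟨h1, h2⟩
  have e1 : ∀ c, (blk2 K ι1 ι2 g)⁻¹ c = mk2 (fs K ι1 ι2 c) (g⁻¹ (sn K ι1 ι2 c)) := by
    intro c
    rw [← map_inv, blk2_apply]
  refine ⟨fun c => ?_, fun b => ?_⟩
  · change fs K ι1 ι2 ((blk2 K ι1 ι2 g)⁻¹ (z (blk2 K ι1 ι2 g c))) = _
    rw [e1, fs_mk2, h1, blk2_apply, fs_mk2]
  · change (blk2 K ι1 ι2 g)⁻¹ (z (blk2 K ι1 ι2 g (mk2 0 b))) = _
    have h3 : blk2 K ι1 ι2 g (mk2 0 b) = mk2 0 (g b) := by
      rw [blk2_apply, fs_mk2, sn_mk2]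
    rw [h3, h2, e1, fs_mk2, sn_mk2]
    congr 1
    exact LinearEquiv.symm_apply_apply g _

variable [DecidableEq ι1] [DecidableEq ι2] {P1 : Hyp Φ ι1} {P2 : Hyp Φ ι2}

theorem adjL_blk1 (g : (ι1 → K) ≃ₗ[K] (ι1 → K)) (b : ι1 ⊕ ι2 → K) :
    adjL Φ.θ (blk1 K ι1 ι2 g) b = mk2 (adjL Φ.θ g (fs K ι1 ι2 b)) (sn K ι1 ι2 b) := by
  apply hh_ext_right Φ.θθ
  intro a
  rw [hh_adjL' Φ.θθ, hh_sum, hh_sum a, ← map_inv, blk1_apply, fs_mk2, sn_mk2, fs_mk2, sn_mk2,
    hh_adjL' Φ.θθ]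

theorem adjL_blk2 (g : (ι2 → K) ≃ₗ[K] (ι2 → K)) (b : ι1 ⊕ ι2 → K) :
    adjL Φ.θ (blk2 K ι1 ι2 g) b = mk2 (fs K ι1 ι2 b) (adjL Φ.θ g (sn K ι1 ι2 b)) := by
  apply hh_ext_right Φ.θθ
  intro a
  rw [hh_adjL' Φ.θθ, hh_sum, hh_sum a, ← map_inv, blk2_apply, fs_mk2, sn_mk2, fs_mk2, sn_mk2,
    hh_adjL' Φ.θθ]

theorem gl_blk1 (h : Orth P1 P2) (g : (ι1 → K) ≃ₗ[K] (ι1 → K)) :
    (sum h).gl (blk1 K ι1 ι2 g) = P1.gl g := by
  ext1 v
  rw [Hyp.gl_apply, Hyp.gl_apply, adjL_blk1, blk1_apply, sum_x, sum_y]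
  simp only [map_sub, fs_mk2, sn_mk2, fs_px, sn_px, fs_py, sn_py, sub_self, map_zero, add_zero]

theorem gl_blk2 (h : Orth P1 P2) (g : (ι2 → K) ≃ₗ[K] (ι2 → K)) :
    (sum h).gl (blk2 K ι1 ι2 g) = P2.gl g := by
  ext1 v
  rw [Hyp.gl_apply, Hyp.gl_apply, adjL_blk2, blk2_apply, sum_x, sum_y]
  simp only [map_sub, fs_mk2, sn_mk2, fs_px, sn_px, fs_py, sn_py, sub_self, map_zero, zero_add]

/-- **One step.** -/
theorem step [Finite K] [Finite E] {k : Type*} [Field k] [CharZero k] (h : Orth P1 P2) (X : Set E)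
    (hX : ∀ v ∈ X, P1.px v = 0 ∧ P1.py v = 0 ∧ P2.px v = 0 ∧ P2.py v = 0)
    (ε : MonoidAlgebra k ((ι2 → K) ≃ₗ[K] (ι2 → K)))
    (z : MonoidAlgebra k ((ι1 → K) ≃ₗ[K] (ι1 → K))) :
    (av k (P2.UU ⊓ St X) * mp P2.gl ε) * (av k (P1.UU ⊓ P2.Fx ⊓ St X) * mp P1.gl z) =
      av k ((sum h).UU ⊓ St X) *
        mp (sum h).gl (av k (Up K ι1 ι2) * mp (blk2 K ι1 ι2) ε * mp (blk1 K ι1 ι2) z) := by
  have hE : Finite (E ≃ₗ[K] E) := DFunLike.finite _
  have hk : ∀ {G : Type} [Group G] [Finite G] (U : Subgroup G), ((Nat.card U : ℕ) : k) ≠ 0 :=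
    fun U => Nat.cast_ne_zero.mpr Nat.card_pos.ne'
  have h1 := av_mul h X (k := k) (fun U => hk U) hX
  have h2 : mp P2.gl ε * av k (P1.UU ⊓ P2.Fx ⊓ St X) =
      av k (P1.UU ⊓ P2.Fx ⊓ St X) * mp P2.gl ε := by
    refine mp_av_comm (fun g => ?_) ε
    refine mem_Nm_of_conj fun u hu => ?_
    have h3 := P2.gl_comm hu.1.2 g
    have h4 : (P2.gl g)⁻¹ * u * P2.gl g = u := by
      rw [mul_assoc, ← h3, inv_mul_cancel_left]
    rw [h4]
    exact hu
  have h5 : mp (sum h).gl (mp (blk2 K ι1 ι2) ε) = mp P2.gl ε := by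
    rw [mp_mp]
    congr 1
    congr 1
    ext1 g
    exact gl_blk2 h g
  have h6 : mp (sum h).gl (mp (blk1 K ι1 ι2) z) = mp P1.gl z := by
    rw [mp_mp]
    congr 1
    congr 1
    ext1 g
    exact gl_blk1 h g
  rw [map_mul, map_mul, h5, h6, mp_av _ (sum h).gl_injective]
  calc (av k (P2.UU ⊓ St X) * mp P2.gl ε) * (av k (P1.UU ⊓ P2.Fx ⊓ St X) * mp P1.gl z)
      = av k (P2.UU ⊓ St X) * (mp P2.gl ε * av k (P1.UU ⊓ P2.Fx ⊓ St X)) * mp P1.gl z := by
        simp only [mul_assoc]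
    _ = (av k (P2.UU ⊓ St X) * av k (P1.UU ⊓ P2.Fx ⊓ St X)) * mp P2.gl ε * mp P1.gl z := by
        rw [h2]
        simp only [mul_assoc]
    _ = _ := by
        rw [h1]
        simp only [mul_assoc]

/-! ### the index types -/

/-- `n` copies of `ι` -/
def J (ι : Type) : ℕ → Type
  | 0 => Empty
  | n + 1 => J ι n ⊕ ι

instance instFJ (ι : Type) [Fintype ι] : ∀ n, Fintype (J ι n)
  | 0 => inferInstanceAs (Fintype Empty)
  | n + 1 => letI := instFJ ι n; inferInstanceAs (Fintype (J ι n ⊕ ι))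

instance instDJ (ι : Type) [DecidableEq ι] : ∀ n, DecidableEq (J ι n)
  | 0 => inferInstanceAs (DecidableEq Empty)
  | n + 1 => letI := instDJ ι n; inferInstanceAs (DecidableEq (J ι n ⊕ ι))

theorem card_J (ι : Type) [Fintype ι] (n : ℕ) : Fintype.card (J ι n) = n * Fintype.card ι := by
  induction n with
  | zero =>
    rw [zero_mul]
    exact Fintype.card_empty
  | succ n ih =>
    have : Fintype.card (J ι (n + 1)) = Fintype.card (J ι n) + Fintype.card ι :=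
      Fintype.card_sum
    rw [this, ih]
    ring

/-- the idempotents of the general linear groups -/
noncomputable def eN {k : Type*} [Field k] {K : Type} [Field K] [Finite K] {ι : Type} [Fintype ι]
    (ε : MonoidAlgebra k ((ι → K) ≃ₗ[K] (ι → K))) :
    ∀ n, MonoidAlgebra k ((J ι n → K) ≃ₗ[K] (J ι n → K))
  | 0 => 1
  | n + 1 => (av k (Up K (J ι n) ι) * mp (blk2 K (J ι n) ι) ε * mp (blk1 K (J ι n) ι) (eN ε n) :
      MonoidAlgebra k ((J ι n ⊕ ι → K) ≃ₗ[K] (J ι n ⊕ ι → K)))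

theorem eN_zero {k : Type*} [Field k] {K : Type} [Field K] [Finite K] {ι : Type} [Fintype ι]
    (ε : MonoidAlgebra k ((ι → K) ≃ₗ[K] (ι → K))) : eN ε 0 = 1 := rfl

theorem eN_succ {k : Type*} [Field k] {K : Type} [Field K] [Finite K] {ι : Type} [Fintype ι]
    (ε : MonoidAlgebra k ((ι → K) ≃ₗ[K] (ι → K))) (n : ℕ) : eN ε (n + 1) =
      (av k (Up K (J ι n) ι) * mp (blk2 K (J ι n) ι) ε * mp (blk1 K (J ι n) ι) (eN ε n) :
      MonoidAlgebra k ((J ι n ⊕ ι → K) ≃ₗ[K] (J ι n ⊕ ι → K))) := rfl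

theorem eN_idem {k : Type*} [Field k] [CharZero k] {K : Type} [Field K] [Finite K] {ι : Type}
    [Fintype ι] {ε : MonoidAlgebra k ((ι → K) ≃ₗ[K] (ι → K))} (hε : ε * ε = ε) (n : ℕ) :
    eN ε n * eN ε n = eN ε n := by
  induction n with
  | zero => exact mul_one 1
  | succ n ih =>
    have hA : av k (Up K (J ι n) ι) * av k (Up K (J ι n) ι) = av k (Up K (J ι n) ι) :=
      av_idem (Nat.cast_ne_zero.mpr Nat.card_pos.ne')
    have hB : mp (blk2 K (J ι n) ι) ε * mp (blk2 K (J ι n) ι) ε = mp (blk2 K (J ι n) ι) ε := by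
      rw [← map_mul, hε]
    have hC : mp (blk1 K (J ι n) ι) (eN ε n) * mp (blk1 K (J ι n) ι) (eN ε n) =
        mp (blk1 K (J ι n) ι) (eN ε n) := by
      rw [← map_mul, ih]
    have h1 := mp_av_comm (k := k) (f := blk2 K (J ι n) ι) (V := Up K (J ι n) ι)
      (fun g => blk2_Nm g) ε
    have h2 := mp_av_comm (k := k) (f := blk1 K (J ι n) ι) (V := Up K (J ι n) ι)
      (fun g => blk1_Nm g) (eN ε n)
    have h3 := mp_comm_mp (k := k) (f := blk1 K (J ι n) ι) (f' := blk2 K (J ι n) ι)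
      (fun a b => blk_comm a b) (eN ε n) ε
    rw [eN_succ]
    generalize av k (Up K (J ι n) ι) = A at *
    generalize mp (blk2 K (J ι n) ι) ε = B at *
    generalize mp (blk1 K (J ι n) ι) (eN ε n) = C at *
    calc A * B * C * (A * B * C) = A * B * (C * A) * (B * C) := by simp only [mul_assoc]
      _ = A * (B * A) * (C * B) * C := by rw [h2]; simp only [mul_assoc]
      _ = (A * A) * (B * B) * (C * C) := by rw [h1, h3]; simp only [mul_assoc]
      _ = A * B * C := by rw [hA, hB, hC]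

end Vale.Agent.P180.H805.Hs
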