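import Vale.Agent.P180.H805.Le
import Vale.Agent.P180.H393.Fr

/-!
P180 H805: the product of the idempotents of a frame.
-/

set_option linter.all false

namespace Vale.Agent.P180.H805.Hs

open Module Vale.Agent.P180 Vale.Agent.P180.H768.Gd Vale.Agent.P180.R2.H854
  Vale.Agent.P180.R2.H799 Vale.Agent.P180.R2.H799.BN Vale.Agent.P180.H393.Fm
open Vale.Agent.P180.H19.Atwo (mp mp_single)
open Vale.Agent.P180.H897 (EEp)

variable {K E : Type} [Field K] [AddCommGroup E] [Module K E] {Φ : HForm K E}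
  {ι : Type} [Fintype ι] {m : ℕ} (F : Frame Φ ι m)

/-- the `x`-part of `n` consecutive pairs of a frame -/
def xn (i : ℕ) : ∀ n, (J ι n → K) →ₗ[K] E
  | 0 => 0
  | n + 1 => (xn i n ∘ₗ fs K (J ι n) ι + F.x (i + n) ∘ₗ sn K (J ι n) ι :
      (J ι n ⊕ ι → K) →ₗ[K] E)

/-- the `y`-part of `n` consecutive pairs of a frame -/
def yn (i : ℕ) : ∀ n, (J ι n → K) →ₗ[K] E
  | 0 => 0
  | n + 1 => (yn i n ∘ₗ fs K (J ι n) ι + F.y (i + n) ∘ₗ sn K (J ι n) ι :
      (J ι n ⊕ ι → K) →ₗ[K] E)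

theorem xn_zero (i : ℕ) (c : J ι 0 → K) : xn F i 0 c = 0 := rfl

theorem yn_zero (i : ℕ) (c : J ι 0 → K) : yn F i 0 c = 0 := rfl

theorem xn_succ (i n : ℕ) (c : J ι (n + 1) → K) : xn F i (n + 1) c =
    xn F i n (fs K (J ι n) ι c) + F.x (i + n) (sn K (J ι n) ι c) := rfl

theorem yn_succ (i n : ℕ) (c : J ι (n + 1) → K) : yn F i (n + 1) c =
    yn F i n (fs K (J ι n) ι c) + F.y (i + n) (sn K (J ι n) ι c) := rfl

theorem xn_x (i n : ℕ) (h : i + n ≤ m) (j : ℕ) (hj : j < m) (a : J ι n → K) (b : ι → K) :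
    Φ.B (xn F i n a) (F.x j b) = 0 := by
  induction n with
  | zero => rw [xn_zero, Φ.zero_left]
  | succ n ih =>
    rw [xn_succ, Φ.add_left, ih (by omega), F.xx _ (by omega) _ hj, add_zero]

theorem yn_y (i n : ℕ) (h : i + n ≤ m) (j : ℕ) (hj : j < m) (a : J ι n → K) (b : ι → K) :
    Φ.B (yn F i n a) (F.y j b) = 0 := by
  induction n with
  | zero => rw [yn_zero, Φ.zero_left]
  | succ n ih =>
    rw [yn_succ, Φ.add_left, ih (by omega), F.yy _ (by omega) _ hj, add_zero]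

theorem xn_y (i n : ℕ) (h : i + n ≤ m) (j : ℕ) (hj : j < m) (hij : i + n ≤ j)
    (a : J ι n → K) (b : ι → K) : Φ.B (xn F i n a) (F.y j b) = 0 := by
  induction n with
  | zero => rw [xn_zero, Φ.zero_left]
  | succ n ih =>
    rw [xn_succ, Φ.add_left, ih (by omega) (by omega), F.xy _ (by omega) _ hj,
      if_neg (by omega), add_zero]

theorem yn_x (i n : ℕ) (h : i + n ≤ m) (j : ℕ) (hj : j < m) (hij : i + n ≤ j)
    (a : J ι n → K) (b : ι → K) : Φ.B (yn F i n a) (F.x j b) = 0 := by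
  induction n with
  | zero => rw [yn_zero, Φ.zero_left]
  | succ n ih =>
    rw [yn_succ, Φ.add_left, ih (by omega) (by omega), F.yx _ (by omega) _ hj,
      if_neg (by omega), add_zero]

theorem xn_xn (i n : ℕ) (h : i + n ≤ m) (a b : J ι n → K) :
    Φ.B (xn F i n a) (xn F i n b) = 0 := by
  induction n with
  | zero => rw [xn_zero, Φ.zero_left]
  | succ n ih =>
    rw [xn_succ, xn_succ, Φ.add_left, Φ.add_right, Φ.add_right, ih (by omega),
      xn_x F i n (by omega) _ (by omega), F.xx _ (by omega) _ (by omega),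
      Φ.eq_zero_comm (xn_x F i n (by omega) _ (by omega) _ _), add_zero, add_zero]

theorem yn_yn (i n : ℕ) (h : i + n ≤ m) (a b : J ι n → K) :
    Φ.B (yn F i n a) (yn F i n b) = 0 := by
  induction n with
  | zero => rw [yn_zero, Φ.zero_left]
  | succ n ih =>
    rw [yn_succ, yn_succ, Φ.add_left, Φ.add_right, Φ.add_right, ih (by omega),
      yn_y F i n (by omega) _ (by omega), F.yy _ (by omega) _ (by omega),
      Φ.eq_zero_comm (yn_y F i n (by omega) _ (by omega) _ _), add_zero, add_zero]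

theorem hh_J (n : ℕ) (θ : K →+* K) (a b : J ι (n + 1) → K) : hh θ a b =
    hh θ (fs K (J ι n) ι a) (fs K (J ι n) ι b) + hh θ (sn K (J ι n) ι a) (sn K (J ι n) ι b) :=
  hh_sum (ι1 := J ι n) (ι2 := ι) a b

theorem xn_yn (i n : ℕ) (h : i + n ≤ m) (a b : J ι n → K) :
    Φ.B (xn F i n a) (yn F i n b) = hh Φ.θ a b := by
  induction n with
  | zero =>
    rw [xn_zero, Φ.zero_left]
    exact (Finset.sum_eq_zero fun (x : J ι 0) _ => nomatch x).symm
  | succ n ih =>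
    rw [xn_succ, yn_succ, Φ.add_left, Φ.add_right, Φ.add_right, ih (by omega),
      xn_y F i n (by omega) _ (by omega) le_rfl, F.xy _ (by omega) _ (by omega), if_pos rfl,
      Φ.eq_zero_comm (yn_x F i n (by omega) _ (by omega) le_rfl _ _), add_zero, zero_add, hh_J]

/-- **`n` consecutive pairs of a frame**, as one pair. -/
def Hn (i n : ℕ) (h : i + n ≤ m) : Hyp Φ (J ι n) where
  x := xn F i n
  y := yn F i n
  xx := xn_xn F i n h
  yy := yn_yn F i n h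
  xy := xn_yn F i n h

theorem Hn_x (i n : ℕ) (h : i + n ≤ m) : (Hn F i n h).x = xn F i n := rfl

theorem Hn_y (i n : ℕ) (h : i + n ≤ m) : (Hn F i n h).y = yn F i n := rfl

theorem orth_Hn (i n : ℕ) (h : i + n < m) : Orth (Hn F i n h.le) (F.hyp (i + n) h) where
  xx a b := xn_x F i n h.le _ h a b
  xy a b := xn_y F i n h.le _ h le_rfl a b
  yx a b := yn_x F i n h.le _ h le_rfl a b
  yy a b := yn_y F i n h.le _ h a b

theorem Hn_succ (i n : ℕ) (h : i + n < m) : Hn F i (n + 1) h = sum (orth_Hn F i n h) := rfl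

/-- the vectors of the pairs of index at least `j` -/
def XS (j : ℕ) : Set E :=
  {v | ∃ l, j ≤ l ∧ l < m ∧ ((∃ a, v = F.x l a) ∨ ∃ a, v = F.y l a)}

theorem H_eq_St (j : ℕ) : F.H j = IsoG Φ ⊓ St (XS F j) := by
  ext g
  constructor
  · rintro ⟨h1, h2⟩
    refine ⟨h1, ?_⟩
    rintro _ ⟨l, hl, hlm, ⟨a, rfl⟩ | ⟨a, rfl⟩⟩
    · exact (h2 l hl hlm).1 a
    · exact (h2 l hl hlm).2 a
  · rintro ⟨h1, h2⟩
    exact ⟨h1, fun l hl hlm => ⟨fun a => h2 _ ⟨l, hl, hlm, Or.inl ⟨a, rfl⟩⟩,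
      fun a => h2 _ ⟨l, hl, hlm, Or.inr ⟨a, rfl⟩⟩⟩⟩

theorem UU_inf_H {κ : Type} [Fintype κ] [DecidableEq κ] (P : Hyp Φ κ) (j : ℕ) :
    P.UU ⊓ F.H j = P.UU ⊓ St (XS F j) := by
  rw [H_eq_St, ← inf_assoc]
  congr 1
  exact inf_eq_left.mpr fun _ h => h.1

theorem Fx_inf_H {κ : Type} [Fintype κ] [DecidableEq κ] (P : Hyp Φ κ) (j : ℕ) :
    P.Fx ⊓ F.H j = P.Fx ⊓ St (XS F j) := by
  rw [H_eq_St, ← inf_assoc]
  congr 1
  exact inf_eq_left.mpr fun _ h => h.1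

variable [DecidableEq ι]

theorem px_Hn_of (i n : ℕ) (h : i + n ≤ m) {v : E} (hv : ∀ b, Φ.B v (yn F i n b) = 0) :
    (Hn F i n h).px v = 0 := by
  apply hh_ext_left (θ := Φ.θ)
  intro b
  rw [Hyp.hh_px, hh_zero_left]
  exact hv b

theorem py_Hn_of (i n : ℕ) (h : i + n ≤ m) {v : E} (hv : ∀ b, Φ.B v (xn F i n b) = 0) :
    (Hn F i n h).py v = 0 := by
  apply hh_ext_left (θ := Φ.θ)
  intro b
  rw [Hyp.hh_py, hh_zero_left]
  change _ * Φ.B v (xn F i n b) = 0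
  rw [hv, mul_zero]

theorem Hn_XS (i n : ℕ) (h : i + n ≤ m) {j : ℕ} (hj : i + n ≤ j) {v : E} (hv : v ∈ XS F j) :
    (Hn F i n h).px v = 0 ∧ (Hn F i n h).py v = 0 := by
  obtain ⟨l, hl, hlm, ⟨a, rfl⟩ | ⟨a, rfl⟩⟩ := hv
  · exact ⟨px_Hn_of F i n h fun b =>
        Φ.eq_zero_comm (yn_x F i n h l hlm (hj.trans hl) b a),
      py_Hn_of F i n h fun b => Φ.eq_zero_comm (xn_x F i n h l hlm b a)⟩
  · exact ⟨px_Hn_of F i n h fun b => Φ.eq_zero_comm (yn_y F i n h l hlm b a),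
      py_Hn_of F i n h fun b =>
        Φ.eq_zero_comm (xn_y F i n h l hlm (hj.trans hl) b a)⟩

theorem hyp_XS (i : ℕ) (h : i < m) {v : E} (hv : v ∈ XS F (i + 1)) :
    (F.hyp i h).px v = 0 ∧ (F.hyp i h).py v = 0 := by
  obtain ⟨l, hl, hlm, ⟨a, rfl⟩ | ⟨a, rfl⟩⟩ := hv
  · exact ⟨(F.px_ne h hlm (by omega) a).1, (F.px_ne h hlm (by omega) a).2.1⟩
  · exact ⟨(F.px_ne h hlm (by omega) a).2.2.1, (F.px_ne h hlm (by omega) a).2.2.2⟩

theorem UU_Hn_zero (i : ℕ) (h : i + 0 ≤ m) : (Hn F i 0 h).UU = ⊥ := by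
  rw [eq_bot_iff]
  rintro u ⟨-, -, h3⟩
  rw [Subgroup.mem_bot]
  ext v
  obtain ⟨a, ha⟩ := h3 v (funext fun x : J ι 0 => nomatch x)
  have h4 : (Hn F i 0 h).x a = 0 := rfl
  rw [h4, sub_eq_zero] at ha
  exact ha

theorem av_bot {k : Type*} [Field k] {G : Type*} [Group G] [Finite G] :
    av k (⊥ : Subgroup G) = 1 := by
  unfold av
  letI := Fintype.ofFinite (⊥ : Subgroup G)
  rw [Nat.card_unique, Nat.cast_one, inv_one, one_smul, Fintype.sum_unique]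
  rfl

/-- **The product of the idempotents of consecutive pairs.** -/
theorem EEp_frame [Finite K] [Finite E] {k : Type*} [Field k] [CharZero k]
    (ε : MonoidAlgebra k ((ι → K) ≃ₗ[K] (ι → K))) (Ef : ℕ → MonoidAlgebra k (E ≃ₗ[K] E))
    (hE : ∀ j (hj : j < m), Ef j = av k (F.U j hj) * mp (F.hyp j hj).gl ε)
    (i n : ℕ) (h : i + n ≤ m) :
    EEp Ef i n = av k ((Hn F i n h).UU ⊓ F.H (i + n)) * mp (Hn F i n h).gl (eN ε n) := by
  have hfE : Finite (E ≃ₗ[K] E) := DFunLike.finite _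
  induction n with
  | zero =>
    have h1 : (Hn F i 0 h).UU ⊓ F.H (i + 0) = ⊥ := by rw [UU_Hn_zero, bot_inf_eq]
    rw [h1, av_bot, eN_zero, map_one, mul_one]
    rfl
  | succ n ih =>
    have hlt : i + n < m := h
    have hst := step (k := k) (orth_Hn F i n hlt) (XS F (i + n + 1)) (fun v hv =>
      ⟨(Hn_XS F i n hlt.le (Nat.le_succ _) hv).1, (Hn_XS F i n hlt.le (Nat.le_succ _) hv).2,
        (hyp_XS F (i + n) hlt hv).1, (hyp_XS F (i + n) hlt hv).2⟩) ε (eN ε n)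
    have h1 : F.U (i + n) hlt = (F.hyp (i + n) hlt).UU ⊓ St (XS F (i + n + 1)) :=
      UU_inf_H F _ _
    have h2 : (Hn F i n hlt.le).UU ⊓ F.H (i + n) =
        (Hn F i n hlt.le).UU ⊓ (F.hyp (i + n) hlt).Fx ⊓ St (XS F (i + n + 1)) := by
      rw [F.H_eq hlt, inf_comm (F.H (i + n + 1)), Fx_inf_H, ← inf_assoc]
    have h3 : (Hn F i (n + 1) h).UU ⊓ F.H (i + (n + 1)) =
        (sum (orth_Hn F i n hlt)).UU ⊓ St (XS F (i + n + 1)) :=
      UU_inf_H F _ _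
    change Ef (i + n) * EEp Ef i n = _
    rw [hE _ hlt, ih hlt.le, h1, h2, hst, h3]
    rfl

theorem EEp_top [Finite K] [Finite E] {k : Type*} [Field k] [CharZero k]
    (ε : MonoidAlgebra k ((ι → K) ≃ₗ[K] (ι → K))) (Ef : ℕ → MonoidAlgebra k (E ≃ₗ[K] E))
    (hE : ∀ j (hj : j < m), Ef j = av k (F.U j hj) * mp (F.hyp j hj).gl ε)
    (i n : ℕ) (h : i + n = m) :
    EEp Ef i n = av k (Hn F i n h.le).UU * mp (Hn F i n h.le).gl (eN ε n) := by
  rw [EEp_frame F ε Ef hE i n h.le, F.H_top h.ge]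
  congr 2
  exact inf_eq_left.mpr fun _ h => h.1

end Vale.Agent.P180.H805.Hs
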